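import Vale.Agent.Lib.P204.Compact

/-! # P204: linear algebra of taming and compatibility -/

open scoped ContDiff
open Matrix

namespace P204

/-- a taming form is nondegenerate -/
theorem tames_det {W J : R4 → Matrix (Fin 4) (Fin 4) ℝ} (h : Tames W J) (x : R4) : (W x).det ≠ 0 := by
  intro h0
  obtain ⟨v, hv, hv0⟩ := Matrix.exists_vecMul_eq_zero_iff.2 h0
  have h1 := h x v hv
  rw [Matrix.dotProduct_mulVec, hv0] at h1
  simp at h1

/-- `J`-invariance from the matrix identity -/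
theorem inv_of_matrix {W J : Matrix (Fin 4) (Fin 4) ℝ} (h : Jᵀ * W * J = W) (u v : R4) :
    (J *ᵥ u) ⬝ᵥ (W *ᵥ (J *ᵥ v)) = u ⬝ᵥ (W *ᵥ v) := by
  have h1 : u ⬝ᵥ ((Jᵀ * W * J) *ᵥ v) = (J *ᵥ u) ⬝ᵥ (W *ᵥ (J *ᵥ v)) := by
    rw [← Matrix.mulVec_mulVec, ← Matrix.mulVec_mulVec, Matrix.dotProduct_mulVec u Jᵀ,
      Matrix.vecMul_transpose]
  rw [← h1, h]

end P204
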