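import Vale.Agent.Lib.P204.ParInt

/-! # P204: averaging functions and forms

MODULE Avg. `avg2 1 a b f` is the mean of `f` over the unit square in the directions `a`, `b`
(`a = b` is allowed: then it is the double integral of `f (x + (s + t) e a)`). All integrands are
continuous on the compact square, hence integrable. `avg2_indep_a`: write the set integral over
`Icc (0 : ℝ × ℝ) 1` as an iterated interval integral (`Set.Icc_prod_eq`, `setIntegral_prod`, Fubini),
and use `Function.Periodic.intervalIntegral_add_eq` for the one-variable periodic function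
`s ↦ f (x + s • e a + t • e b)`.
-/

open scoped ContDiff
open MeasureTheory Matrix

namespace P204

theorem avg2_cont_int {k : ℝ × ℝ → ℝ} (hk : Continuous k) (a b : Fin 4) {f : R4 → ℝ}
    (hf : Continuous f) (x : R4) :
    IntegrableOn (fun p : ℝ × ℝ => k p * f (x + p.1 • e a + p.2 • e b)) (Set.Icc 0 1) := by
  have hc : Continuous (fun p : ℝ × ℝ => k p * f (x + p.1 • e a + p.2 • e b)) := by fun_prop
  exact hc.continuousOn.integrableOn_compact isCompact_Icc

theorem avg2_add {k : ℝ × ℝ → ℝ} (hk : Continuous k) (a b : Fin 4) {f g : R4 → ℝ}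
    (hf : Continuous f) (hg : Continuous g) (x : R4) :
    avg2 k a b (fun y => f y + g y) x = avg2 k a b f x + avg2 k a b g x := by
  unfold avg2
  rw [← integral_add (avg2_cont_int hk a b hf x) (avg2_cont_int hk a b hg x)]
  refine integral_congr_ae (Filter.Eventually.of_forall fun p => ?_)
  show k p * (f _ + g _) = _
  ring

theorem avg2_const_mul {k : ℝ × ℝ → ℝ} (a b : Fin 4) (c : ℝ) (f : R4 → ℝ) (x : R4) :
    avg2 k a b (fun y => c * f y) x = c * avg2 k a b f x := by
  unfold avg2
  rw [← integral_const_mul]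
  refine integral_congr_ae (Filter.Eventually.of_forall fun p => ?_)
  show k p * (c * f _) = c * (k p * f _)
  ring

theorem avg2_per {k : ℝ × ℝ → ℝ} (a b : Fin 4) {f : R4 → ℝ} (hf : Per f) : Per (avg2 k a b f) := by
  intro x n
  unfold avg2
  refine integral_congr_ae (Filter.Eventually.of_forall fun p => ?_)
  show k p * f _ = k p * f _
  rw [← hf (x + p.1 • e a + p.2 • e b) n]
  congr 2
  abel

/-- translations that fix `f` fix its averages -/
theorem avg2_shift {k : ℝ × ℝ → ℝ} (a b : Fin 4) {f : R4 → ℝ} {v : R4}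
    (hf : ∀ x, f (x + v) = f x) (x : R4) : avg2 k a b f (x + v) = avg2 k a b f x := by
  unfold avg2
  refine integral_congr_ae (Filter.Eventually.of_forall fun p => ?_)
  show k p * f _ = k p * f _
  rw [← hf (x + p.1 • e a + p.2 • e b)]
  congr 2
  abel

private theorem avg2_zero_smooth_aux (a b : Fin 4) (f : R4 → ℝ) (x : R4) :
    avg2 (fun _ => 1) a b f x = ∫ p in Set.Icc (0 : ℝ × ℝ) 1, f (x + p.1 • e a + p.2 • e b) := by
  unfold avg2
  simp only [one_mul]

private theorem avg2_iter (a b : Fin 4) {f : R4 → ℝ} (hc : Continuous f) (x : R4) :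
    avg2 (fun _ => 1) a b f x =
      ∫ s in Set.Icc (0 : ℝ) 1, ∫ r in Set.Icc (0 : ℝ) 1, f (x + s • e a + r • e b) := by
  rw [avg2_zero_smooth_aux]
  have hI : (Set.Icc (0 : ℝ × ℝ) 1) = Set.Icc (0 : ℝ) 1 ×ˢ Set.Icc (0 : ℝ) 1 := by
    rw [Set.Icc_prod_eq]; rfl
  have hc' : Continuous (fun p : ℝ × ℝ => f (x + p.1 • e a + p.2 • e b)) := by fun_prop
  have hint : IntegrableOn (fun p : ℝ × ℝ => f (x + p.1 • e a + p.2 • e b))
      (Set.Icc (0 : ℝ) 1 ×ˢ Set.Icc (0 : ℝ) 1) := by
    rw [← hI]
    exact hc'.continuousOn.integrableOn_compact isCompact_Icc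
  rw [hI]
  exact setIntegral_prod _ hint

private theorem avg2_iter' (a b : Fin 4) {f : R4 → ℝ} (hc : Continuous f) (x : R4) :
    avg2 (fun _ => 1) a b f x =
      ∫ r in Set.Icc (0 : ℝ) 1, ∫ s in Set.Icc (0 : ℝ) 1, f (x + s • e a + r • e b) := by
  rw [avg2_iter a b hc x]
  have hI : (Set.Icc (0 : ℝ × ℝ) 1) = Set.Icc (0 : ℝ) 1 ×ˢ Set.Icc (0 : ℝ) 1 := by
    rw [Set.Icc_prod_eq]; rfl
  have hc' : Continuous (fun p : ℝ × ℝ => f (x + p.1 • e a + p.2 • e b)) := by fun_prop
  have hint : IntegrableOn (fun p : ℝ × ℝ => f (x + p.1 • e a + p.2 • e b))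
      (Set.Icc (0 : ℝ) 1 ×ˢ Set.Icc (0 : ℝ) 1) := by
    rw [← hI]
    exact hc'.continuousOn.integrableOn_compact isCompact_Icc
  refine integral_integral_swap ?_
  rw [Measure.prod_restrict]
  exact hint

private theorem avg2_shift_int {φ : ℝ → ℝ} (hp : Function.Periodic φ 1) (t : ℝ) :
    ∫ s in Set.Icc (0 : ℝ) 1, φ (t + s) = ∫ s in Set.Icc (0 : ℝ) 1, φ s := by
  rw [integral_Icc_eq_integral_Ioc, integral_Icc_eq_integral_Ioc,
    ← intervalIntegral.integral_of_le zero_le_one, ← intervalIntegral.integral_of_le zero_le_one,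
    intervalIntegral.integral_comp_add_left]
  have h := hp.intervalIntegral_add_eq t 0
  simpa using h

private theorem avg2_per_line {f : R4 → ℝ} (hf : Per f) (a : Fin 4) (x y : R4) :
    Function.Periodic (fun s : ℝ => f (x + s • e a + y)) 1 := by
  intro s
  show f (x + (s + 1) • e a + y) = f (x + s • e a + y)
  rw [← per_e hf a (x + s • e a + y)]
  congr 1
  rw [add_smul, one_smul]
  abel

/-- the plain mean does not depend on the coordinate `a` -/
theorem avg2_indep_a (a b : Fin 4) {f : R4 → ℝ} (hc : Continuous f) (hf : Per f) (x : R4) (t : ℝ) :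
    avg2 (fun _ => 1) a b f (x + t • e a) = avg2 (fun _ => 1) a b f x := by
  rw [avg2_iter' a b hc, avg2_iter' a b hc]
  refine integral_congr_ae (Filter.Eventually.of_forall fun r => ?_)
  show (∫ s in Set.Icc (0 : ℝ) 1, f (x + t • e a + s • e a + r • e b)) =
    ∫ s in Set.Icc (0 : ℝ) 1, f (x + s • e a + r • e b)
  rw [← avg2_shift_int (avg2_per_line hf a x (r • e b)) t]
  refine integral_congr_ae (Filter.Eventually.of_forall fun s => ?_)
  show f (x + t • e a + s • e a + r • e b) = f (x + (t + s) • e a + r • e b)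
  rw [add_smul, add_assoc x]

/-- the plain mean does not depend on the coordinate `b` -/
theorem avg2_indep_b (a b : Fin 4) {f : R4 → ℝ} (hc : Continuous f) (hf : Per f) (x : R4) (t : ℝ) :
    avg2 (fun _ => 1) a b f (x + t • e b) = avg2 (fun _ => 1) a b f x := by
  rw [avg2_iter a b hc, avg2_iter a b hc]
  refine integral_congr_ae (Filter.Eventually.of_forall fun s => ?_)
  show (∫ r in Set.Icc (0 : ℝ) 1, f (x + t • e b + s • e a + r • e b)) =
    ∫ r in Set.Icc (0 : ℝ) 1, f (x + s • e a + r • e b)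
  have hp : Function.Periodic (fun r : ℝ => f (x + s • e a + r • e b)) 1 := by
    have h := avg2_per_line hf b (x + s • e a) 0
    simpa using h
  rw [← avg2_shift_int hp t]
  refine integral_congr_ae (Filter.Eventually.of_forall fun r => ?_)
  show f (x + t • e b + s • e a + r • e b) = f (x + s • e a + (t + r) • e b)
  rw [add_smul]
  congr 1
  abel

/-- if all values of `f` on the square are positive, so is the mean -/
theorem avg2_pos (a b : Fin 4) {f : R4 → ℝ} (hc : Continuous f) (x : R4)
    (h : ∀ s t : ℝ, 0 < f (x + s • e a + t • e b)) : 0 < avg2 (fun _ => 1) a b f x := by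
  rw [avg2_zero_smooth_aux]
  have hc' : Continuous (fun p : ℝ × ℝ => f (x + p.1 • e a + p.2 • e b)) := by fun_prop
  have hint : IntegrableOn (fun p : ℝ × ℝ => f (x + p.1 • e a + p.2 • e b))
      (Set.Icc (0 : ℝ × ℝ) 1) := hc'.continuousOn.integrableOn_compact isCompact_Icc
  have hnn : 0 ≤ᵐ[volume.restrict (Set.Icc (0 : ℝ × ℝ) 1)]
      (fun p : ℝ × ℝ => f (x + p.1 • e a + p.2 • e b)) :=
    Filter.Eventually.of_forall fun p => (h p.1 p.2).le
  refine (setIntegral_pos_iff_support_of_nonneg_ae hnn hint).2 ?_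
  have hs : Function.support (fun p : ℝ × ℝ => f (x + p.1 • e a + p.2 • e b)) = Set.univ := by
    ext p
    simp only [Function.mem_support, Set.mem_univ, iff_true]
    exact (h p.1 p.2).ne'
  have hI : (Set.Icc (0 : ℝ × ℝ) 1) = Set.Icc (0 : ℝ) 1 ×ˢ Set.Icc (0 : ℝ) 1 := by
    rw [Set.Icc_prod_eq]; rfl
  rw [hs, Set.univ_inter, hI, Measure.volume_eq_prod, Measure.prod_prod, Real.volume_Icc]
  simp

/-- the entrywise mean of a matrix field -/
noncomputable def avgM (a b : Fin 4) (W : R4 → Matrix (Fin 4) (Fin 4) ℝ) (x : R4) :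
    Matrix (Fin 4) (Fin 4) ℝ :=
  Matrix.of fun i j => avg2 (fun _ => 1) a b (fun y => W y i j) x

theorem avgM_smoothField (a b : Fin 4) {W : R4 → Matrix (Fin 4) (Fin 4) ℝ} (hW : SmoothField W) :
    SmoothField (avgM a b W) := by
  have hk : Continuous (fun _ : ℝ × ℝ => (1 : ℝ)) := continuous_const
  refine ⟨fun i j => avg2_smooth hk a b (hW.1 i j), fun x n => ?_⟩
  ext i j
  exact avg2_per a b (f := fun y => W y i j) (fun y m => by
    show W _ i j = W _ i j
    rw [hW.2 y m]) x n

theorem avgM_skew (a b : Fin 4) {W : R4 → Matrix (Fin 4) (Fin 4) ℝ} (h : ∀ x, (W x)ᵀ = -W x) (x : R4) :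
    (avgM a b W x)ᵀ = -avgM a b W x := by
  ext i j
  show avg2 (fun _ => 1) a b (fun y => W y j i) x = -avg2 (fun _ => 1) a b (fun y => W y i j) x
  have h1 : (fun y => W y j i) = fun y => (-1 : ℝ) * W y i j := by
    funext y
    have := congrFun (congrFun (h y) i) j
    rw [transpose_apply] at this
    rw [this, Matrix.neg_apply]
    ring
  rw [h1, avg2_const_mul]
  ring

theorem avgM_closed (a b : Fin 4) {W : R4 → Matrix (Fin 4) (Fin 4) ℝ} (hW : SmoothField W)
    (hc : ∀ x i j k, D i (fun y => W y j k) x + D j (fun y => W y k i) x +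
      D k (fun y => W y i j) x = 0) (x : R4) (i j k : Fin 4) :
    D i (fun y => avgM a b W y j k) x + D j (fun y => avgM a b W y k i) x +
      D k (fun y => avgM a b W y i j) x = 0 := by
  have hk : Continuous (fun _ : ℝ × ℝ => (1 : ℝ)) := continuous_const
  have key : ∀ l m n : Fin 4, D l (fun y => avgM a b W y m n) x =
      avg2 (fun _ => 1) a b (D l (fun y => W y m n)) x := fun l m n =>
    D_avg2 hk a b (hW.1 m n) l x
  have hcd : ∀ l m n : Fin 4, Continuous (D l (fun y => W y m n)) := fun l m n =>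
    (D_smooth (hW.1 m n) l).continuous
  have hadd := avg2_add hk a b
    (f := fun y => D i (fun y => W y j k) y + D j (fun y => W y k i) y)
    (g := D k (fun y => W y i j)) ((hcd i j k).add (hcd j k i)) (hcd k i j) x
  rw [key, key, key, ← avg2_add hk a b (hcd i j k) (hcd j k i), ← hadd]
  have h0 : (fun y => D i (fun y => W y j k) y + D j (fun y => W y k i) y +
      D k (fun y => W y i j) y) = fun _ => (0 : ℝ) := by
    funext y
    exact hc y i j k
  rw [h0]
  unfold avg2
  simp

private theorem avg2_sum {ι : Type} (s : Finset ι) (a b : Fin 4) (f : ι → R4 → ℝ)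
    (hf : ∀ i, Continuous (f i)) (x : R4) :
    avg2 (fun _ => 1) a b (fun y => ∑ i ∈ s, f i y) x = ∑ i ∈ s, avg2 (fun _ => 1) a b (f i) x := by
  classical
  have hk : Continuous (fun _ : ℝ × ℝ => (1 : ℝ)) := continuous_const
  induction s using Finset.induction_on with
  | empty => unfold avg2; simp
  | insert i s hi ih =>
    rw [Finset.sum_insert hi, ← ih, ← avg2_add hk a b (hf i) (by fun_prop)]
    simp only [Finset.sum_insert hi]

/-- averaging preserves tameness when `J` is invariant in the two directions -/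
theorem avgM_tames (a b : Fin 4) {W J : R4 → Matrix (Fin 4) (Fin 4) ℝ} (hW : SmoothField W)
    (ha : ∀ x (t : ℝ), J (x + t • e a) = J x) (hb : ∀ x (t : ℝ), J (x + t • e b) = J x)
    (h : Tames W J) : Tames (avgM a b W) J := by
  intro x v hv
  have hcW : ∀ i j, Continuous fun y => W y i j := fun i j => (hW.1 i j).continuous
  set u : R4 := J x *ᵥ v with hu
  have h1 : v ⬝ᵥ (avgM a b W x *ᵥ u) =
      avg2 (fun _ => 1) a b (fun y => v ⬝ᵥ (W y *ᵥ u)) x := by
    have h2 : (fun y => v ⬝ᵥ (W y *ᵥ u)) = fun y => ∑ i, v i * ∑ j, u j * W y i j := by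
      funext y
      simp only [dotProduct, mulVec]
      refine Finset.sum_congr rfl fun i _ => ?_
      congr 1
      exact Finset.sum_congr rfl fun j _ => mul_comm _ _
    rw [h2, avg2_sum Finset.univ a b (fun i y => v i * ∑ j, u j * W y i j) (fun i => by fun_prop)]
    simp only [dotProduct, mulVec]
    refine Finset.sum_congr rfl fun i _ => ?_
    rw [avg2_const_mul]
    congr 1
    rw [avg2_sum Finset.univ a b (fun j y => u j * W y i j) (fun j => by fun_prop)]
    refine Finset.sum_congr rfl fun j _ => ?_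
    rw [avg2_const_mul, mul_comm]
    rfl
  rw [h1]
  have hcont : Continuous (fun y => v ⬝ᵥ (W y *ᵥ u)) := by
    simp only [dotProduct, mulVec]
    fun_prop
  refine avg2_pos a b hcont x fun s t => ?_
  have hJ : J (x + s • e a + t • e b) = J x := by rw [hb, ha]
  have h3 := h (x + s • e a + t • e b) v hv
  rw [hJ] at h3
  exact h3

end P204
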