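import Vale.Agent.Lib.P204.Defs

/-! # P204: partial derivatives of smooth periodic functions -/

open scoped ContDiff
open Matrix

namespace P204

/-- coordinate vector -/
noncomputable def e (i : Fin 4) : R4 := Pi.single i 1

/-- smooth functions -/
abbrev S (f : R4 → ℝ) : Prop := ContDiff ℝ ∞ f

/-- periodic functions -/
def Per {α : Type} (f : R4 → α) : Prop :=
  ∀ (x : R4) (n : Fin 4 → ℤ), f (x + fun i => (n i : ℝ)) = f x

theorem D_smooth {f : R4 → ℝ} (hf : S f) (i : Fin 4) : S (D i f) := by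
  have h1 : ContDiff ℝ ∞ (fderiv ℝ f) := hf.fderiv_right (by simp)
  exact h1.clm_apply contDiff_const

theorem D_per {f : R4 → ℝ} (hf : Per f) (i : Fin 4) : Per (D i f) := by
  intro x n
  unfold D
  have h : f = fun y => f (y + fun i => (n i : ℝ)) := by
    funext y
    exact (hf y n).symm
  conv_rhs => rw [h]
  rw [fderiv_comp_add_right]

theorem hasFDerivAt {f : R4 → ℝ} (hf : S f) (x : R4) : HasFDerivAt f (fderiv ℝ f x) x :=
  (hf.differentiable (by simp) x).hasFDerivAt

theorem hasDerivAt_line {f : R4 → ℝ} (hf : S f) (x : R4) (i : Fin 4) (t : ℝ) :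
    HasDerivAt (fun s : ℝ => f (x + s • e i)) (D i f (x + t • e i)) t := by
  have h1 := hasFDerivAt hf (x + t • e i)
  have h2 : HasDerivAt (fun s : ℝ => x + s • e i) ((1 : ℝ) • e i) t :=
    ((hasDerivAt_id t).smul_const (e i)).const_add x
  have h3 := h1.comp_hasDerivAt t h2
  rw [one_smul] at h3
  exact h3

theorem D_comm {f : R4 → ℝ} (hf : S f) (i j : Fin 4) (x : R4) : D i (D j f) x = D j (D i f) x := by
  have hd : Differentiable ℝ (fderiv ℝ f) := (hf.fderiv_right (m := ∞) (by simp)).differentiable (by simp)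
  have h1 : ∀ a b : Fin 4, D a (D b f) x = fderiv ℝ (fderiv ℝ f) x (Pi.single a 1) (Pi.single b 1) := by
    intro a b
    have : HasFDerivAt (fun y => fderiv ℝ f y (Pi.single b 1))
        ((fderiv ℝ (fderiv ℝ f) x).flip (Pi.single b 1)) x := by
      have h2 := (hd x).hasFDerivAt.clm_apply (hasFDerivAt_const (Pi.single b (1 : ℝ) : R4) x)
      simpa using h2
    show fderiv ℝ (fun y => fderiv ℝ f y (Pi.single b 1)) x (Pi.single a 1) = _
    rw [this.fderiv]
    rfl
  rw [h1 i j, h1 j i]
  have hs : IsSymmSndFDerivAt ℝ f x := hf.contDiffAt.isSymmSndFDerivAt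
    (by
      rw [minSmoothness_of_isRCLikeNormedField]
      exact WithTop.coe_le_coe.2 le_top)
  exact hs _ _

theorem D_add {f g : R4 → ℝ} (hf : S f) (hg : S g) (i : Fin 4) (x : R4) :
    D i (fun y => f y + g y) x = D i f x + D i g x := by
  unfold D
  rw [((hasFDerivAt hf x).fun_add (hasFDerivAt hg x)).fderiv]
  rfl

theorem D_sub {f g : R4 → ℝ} (hf : S f) (hg : S g) (i : Fin 4) (x : R4) :
    D i (fun y => f y - g y) x = D i f x - D i g x := by
  unfold D
  rw [((hasFDerivAt hf x).fun_sub (hasFDerivAt hg x)).fderiv]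
  rfl

theorem D_neg {f : R4 → ℝ} (hf : S f) (i : Fin 4) (x : R4) :
    D i (fun y => -f y) x = -D i f x := by
  unfold D
  rw [(hasFDerivAt hf x).fun_neg.fderiv]
  rfl

theorem D_mul_const {f : R4 → ℝ} (hf : S f) (c : ℝ) (i : Fin 4) (x : R4) :
    D i (fun y => c * f y) x = c * D i f x := by
  unfold D
  rw [((hasFDerivAt hf x).const_mul c).fderiv]
  rfl

theorem D_const (c : ℝ) (i : Fin 4) (x : R4) : D i (fun _ => c) x = 0 := by
  unfold D
  simp

/-- a function that does not depend on the coordinate `i` -/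
theorem D_indep {f : R4 → ℝ} (hf : S f) {i : Fin 4} (h : ∀ (x : R4) (t : ℝ), f (x + t • e i) = f x)
    (x : R4) : D i f x = 0 := by
  have h1 := hasDerivAt_line hf x i 0
  have h2 : (fun s : ℝ => f (x + s • e i)) = fun _ => f x := funext fun s => h x s
  rw [h2] at h1
  have h3 := h1.unique (hasDerivAt_const (0 : ℝ) (f x))
  simpa using h3

theorem per_e {α : Type} {f : R4 → α} (hf : Per f) (i : Fin 4) (x : R4) : f (x + e i) = f x := by
  have h := hf x (Pi.single i 1)
  have h2 : (fun j => (((Pi.single i 1 : Fin 4 → ℤ) j : ℤ) : ℝ)) = e i := by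
    funext j
    unfold e
    by_cases hj : j = i
    · subst hj; simp
    · simp [hj]
  rw [h2] at h
  exact h

end P204
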