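import Vale.Agent.Lib.P204.Basic

/-! # P204: making a form positive by adding a large multiple of a semidefinite one -/

open scoped ContDiff
open Matrix

namespace P204

theorem exists_unit_shift (x : R4) : ∃ n : Fin 4 → ℤ, (x + fun i => (n i : ℝ)) ∈ Set.Icc (0 : R4) 1 := by
  refine ⟨fun i => -⌊x i⌋, ?_, ?_⟩
  · intro i
    simp only [Pi.zero_apply, Pi.add_apply, Int.cast_neg]
    have := Int.floor_le (x i)
    linarith
  · intro i
    simp only [Pi.one_apply, Pi.add_apply, Int.cast_neg]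
    have := Int.lt_floor_add_one (x i)
    linarith

/-- compactness: if `q ≥ 0` and `F > 0` where `q = 0`, then `F + C q > 0` for large `C` -/
theorem compact_aux {α : Type} [TopologicalSpace α] [T2Space α] {K : Set α} (hK : IsCompact K)
    {F q : α → ℝ} (hF : Continuous F) (hq : Continuous q) (hq0 : ∀ p ∈ K, 0 ≤ q p)
    (hpos : ∀ p ∈ K, q p = 0 → 0 < F p) : ∃ C : ℝ, 0 ≤ C ∧ ∀ p ∈ K, 0 < F p + C * q p := by
  obtain ⟨M, hM⟩ := hK.exists_bound_of_continuousOn hF.continuousOn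
  have hK0 : IsCompact (K ∩ F ⁻¹' Set.Iic 0) := hK.inter_right (isClosed_Iic.preimage hF)
  rcases (K ∩ F ⁻¹' Set.Iic 0).eq_empty_or_nonempty with h0 | h0
  · refine ⟨0, le_refl _, fun p hp => ?_⟩
    have : 0 < F p := by
      by_contra hc
      push Not at hc
      have : p ∈ K ∩ F ⁻¹' Set.Iic 0 := ⟨hp, hc⟩
      rw [h0] at this
      exact this
    linarith
  · obtain ⟨a, ha, hamin⟩ := hK0.exists_isMinOn h0 hq.continuousOn
    have hqa : 0 < q a := by
      rcases (hq0 a ha.1).lt_or_eq with h | h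
      · exact h
      · have := hpos a ha.1 h.symm
        have h2 : F a ≤ 0 := ha.2
        linarith
    have hM0 : 0 ≤ M := (norm_nonneg _).trans (hM a ha.1)
    refine ⟨(M + 1) / q a, by positivity, fun p hp => ?_⟩
    by_cases hc : F p ≤ 0
    · have h1 : q a ≤ q p := hamin ⟨hp, hc⟩
      have h2 : M + 1 ≤ (M + 1) / q a * q p := by
        calc M + 1 = (M + 1) / q a * q a := by field_simp
          _ ≤ _ := mul_le_mul_of_nonneg_left h1 (by positivity)
      have h3 := hM p hp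
      rw [Real.norm_eq_abs] at h3
      have h4 := neg_abs_le (F p)
      linarith
    · push Not at hc
      have h1 := hq0 p hp
      have h2 : 0 ≤ (M + 1) / q a * q p := by positivity
      linarith

/-- the version for periodic families of quadratic forms on `ℝ⁴` -/
theorem compact_form {F q : R4 → R4 → ℝ} (hF : Continuous fun p : R4 × R4 => F p.1 p.2)
    (hq : Continuous fun p : R4 × R4 => q p.1 p.2)
    (hFper : ∀ v, Per fun x => F x v) (hqper : ∀ v, Per fun x => q x v)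
    (hFh : ∀ x (t : ℝ) v, F x (t • v) = t ^ 2 * F x v)
    (hqh : ∀ x (t : ℝ) v, q x (t • v) = t ^ 2 * q x v)
    (hq0 : ∀ x v, 0 ≤ q x v) (hpos : ∀ x v, v ≠ 0 → q x v = 0 → 0 < F x v) :
    ∃ C : ℝ, ∀ x v, v ≠ 0 → 0 < F x v + C * q x v := by
  have hK : IsCompact ((Set.Icc (0 : R4) 1) ×ˢ (Metric.sphere (0 : R4) 1)) :=
    isCompact_Icc.prod (isCompact_sphere 0 1)
  obtain ⟨C, -, hC⟩ := compact_aux hK hF hq (fun p _ => hq0 p.1 p.2) (fun p hp h => by
    refine hpos p.1 p.2 ?_ h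
    intro h0
    have := hp.2
    rw [h0] at this
    simp at this)
  refine ⟨C, fun x v hv => ?_⟩
  obtain ⟨n, hn⟩ := exists_unit_shift x
  have h1 := hC (x + fun i => (n i : ℝ), ‖v‖⁻¹ • v) ⟨hn, by
    rw [mem_sphere_zero_iff_norm, norm_smul, norm_inv, norm_norm, inv_mul_cancel₀ (norm_ne_zero_iff.2 hv)]⟩
  simp only at h1
  have e1 : F (x + fun i => (n i : ℝ)) (‖v‖⁻¹ • v) = F x (‖v‖⁻¹ • v) := hFper (‖v‖⁻¹ • v) x n
  have e2 : q (x + fun i => (n i : ℝ)) (‖v‖⁻¹ • v) = q x (‖v‖⁻¹ • v) := hqper (‖v‖⁻¹ • v) x n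
  rw [e1, e2, hFh, hqh] at h1
  have h2 : 0 < (‖v‖⁻¹) ^ 2 := by
    have := norm_pos_iff.2 hv
    positivity
  have h3 : 0 < (‖v‖⁻¹) ^ 2 * (F x v + C * q x v) := by linarith
  exact (mul_pos_iff_of_pos_left h2).1 h3

end P204
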