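import Mathlib

/-! # P204: almost complex structures and two-forms on the four-torus

Everything on `T⁴ = ℝ⁴ / ℤ⁴` is written in the global frame of coordinate vector fields, that is, as a
`ℤ⁴`-periodic matrix function on `ℝ⁴`. -/

open scoped ContDiff
open Matrix

namespace P204

/-- Points of `ℝ⁴`, the universal cover of the torus `T⁴ = ℝ⁴ / ℤ⁴`; also tangent vectors. -/
abbrev R4 := Fin 4 → ℝ

/-- The partial derivative in the coordinate direction `i`. -/
noncomputable def D (i : Fin 4) (f : R4 → ℝ) (x : R4) : ℝ := fderiv ℝ f x (Pi.single i 1)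

/-- A matrix field on `ℝ⁴` whose entries are smooth and which is `ℤ⁴`-periodic: a smooth matrix field
on the four-torus. -/
def SmoothField (M : R4 → Matrix (Fin 4) (Fin 4) ℝ) : Prop :=
  (∀ i j, ContDiff ℝ ∞ fun x => M x i j) ∧
    ∀ (x : R4) (n : Fin 4 → ℤ), M (x + fun i => (n i : ℝ)) = M x

/-- `J` is a smooth almost complex structure on the four-torus. -/
def IsACS (J : R4 → Matrix (Fin 4) (Fin 4) ℝ) : Prop :=
  SmoothField J ∧ ∀ x, J x * J x = -1

/-- `W` is a symplectic form on the four-torus: the two-form `(u, v) ↦ uᵀ W v` is smooth,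
alternating, closed (the three cyclic partial derivatives of the entries add up to zero) and
nondegenerate. -/
def Symplectic (W : R4 → Matrix (Fin 4) (Fin 4) ℝ) : Prop :=
  SmoothField W ∧ (∀ x, (W x)ᵀ = -W x) ∧
    (∀ x i j k, D i (fun y => W y j k) x + D j (fun y => W y k i) x +
      D k (fun y => W y i j) x = 0) ∧
    ∀ x, (W x).det ≠ 0

/-- `W` tames `J`: `W(v, Jv) > 0` for every nonzero tangent vector `v`. -/
def Tames (W J : R4 → Matrix (Fin 4) (Fin 4) ℝ) : Prop :=
  ∀ (x : R4) (v : R4), v ≠ 0 → 0 < v ⬝ᵥ (W x *ᵥ (J x *ᵥ v))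

/-- `W` is compatible with `J`: it tames `J` and is `J`-invariant. -/
def Compatible (W J : R4 → Matrix (Fin 4) (Fin 4) ℝ) : Prop :=
  Tames W J ∧ ∀ (x : R4) (u v : R4),
    (J x *ᵥ u) ⬝ᵥ (W x *ᵥ (J x *ᵥ v)) = u ⬝ᵥ (W x *ᵥ v)

end P204
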