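import Vale.Agent.Lib.P204.Alg

/-! # P204: forms on the torus from functions -/

open scoped ContDiff
open Matrix

namespace P204

/-- linear combinations of three smooth functions -/
theorem D_lin3 {f g h : R4 → ℝ} (hf : S f) (hg : S g) (hh : S h) (α β γ : ℝ) (i : Fin 4) (x : R4) :
    D i (fun y => α * f y + β * g y + γ * h y) x = α * D i f x + β * D i g x + γ * D i h x := by
  have h1 : S fun y => α * f y := contDiff_const.mul hf
  have h2 : S fun y => β * g y := contDiff_const.mul hg
  have h3 : S fun y => γ * h y := contDiff_const.mul hh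
  have h4 : S fun y => α * f y + β * g y := h1.add h2
  rw [D_add h4 h3, D_add h1 h2, D_mul_const hf, D_mul_const hg, D_mul_const hh]

/-- the skew matrix with given entries above the diagonal -/
def skew (a01 a02 a03 a12 a13 a23 : ℝ) : Matrix (Fin 4) (Fin 4) ℝ :=
  !![0, a01, a02, a03; -a01, 0, a12, a13; -a02, -a12, 0, a23; -a03, -a13, -a23, 0]

theorem skew_transpose (a01 a02 a03 a12 a13 a23 : ℝ) :
    (skew a01 a02 a03 a12 a13 a23)ᵀ = -skew a01 a02 a03 a12 a13 a23 := by
  ext i j
  fin_cases i <;> fin_cases j <;> simp [skew]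

/-- the field of skew matrices of six functions -/
def skewF (w01 w02 w03 w12 w13 w23 : R4 → ℝ) (x : R4) : Matrix (Fin 4) (Fin 4) ℝ :=
  skew (w01 x) (w02 x) (w03 x) (w12 x) (w13 x) (w23 x)

theorem skewF_smooth {w01 w02 w03 w12 w13 w23 : R4 → ℝ} (h01 : S w01) (h02 : S w02) (h03 : S w03)
    (h12 : S w12) (h13 : S w13) (h23 : S w23) (p01 : Per w01) (p02 : Per w02) (p03 : Per w03)
    (p12 : Per w12) (p13 : Per w13) (p23 : Per w23) :
    SmoothField (skewF w01 w02 w03 w12 w13 w23) := by
  constructor
  · intro i j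
    fin_cases i <;> fin_cases j <;> simp [skewF, skew] <;>
      first
        | exact contDiff_const
        | assumption
        | exact h01.neg
        | exact h02.neg
        | exact h03.neg
        | exact h12.neg
        | exact h13.neg
        | exact h23.neg
  · intro x n
    simp only [skewF, p01 x n, p02 x n, p03 x n, p12 x n, p13 x n, p23 x n]

/-- closedness of the form with six given coefficients -/
theorem skewF_closed {w01 w02 w03 w12 w13 w23 : R4 → ℝ} (h01 : S w01) (h02 : S w02) (h03 : S w03)
    (h12 : S w12) (h13 : S w13) (h23 : S w23)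
    (c012 : ∀ x, D 0 w12 x - D 1 w02 x + D 2 w01 x = 0)
    (c013 : ∀ x, D 0 w13 x - D 1 w03 x + D 3 w01 x = 0)
    (c023 : ∀ x, D 0 w23 x - D 2 w03 x + D 3 w02 x = 0)
    (c123 : ∀ x, D 1 w23 x - D 2 w13 x + D 3 w12 x = 0) (x : R4) (i j k : Fin 4) :
    D i (fun y => skewF w01 w02 w03 w12 w13 w23 y j k) x +
      D j (fun y => skewF w01 w02 w03 w12 w13 w23 y k i) x +
      D k (fun y => skewF w01 w02 w03 w12 w13 w23 y i j) x = 0 := by
  have n01 := fun i => D_neg h01 i x
  have n02 := fun i => D_neg h02 i x
  have n03 := fun i => D_neg h03 i x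
  have n12 := fun i => D_neg h12 i x
  have n13 := fun i => D_neg h13 i x
  have n23 := fun i => D_neg h23 i x
  have c1 := c012 x
  have c2 := c013 x
  have c3 := c023 x
  have c4 := c123 x
  have z := fun i => D_const 0 i x
  fin_cases i <;> fin_cases j <;> fin_cases k <;>
    simp [skewF, skew, n01, n02, n03, n12, n13, n23, z] <;> linarith

end P204
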