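import Vale.Agent.Lib.P204.Form

/-! # P204: linear algebra at a point: invariant extensions of two-forms on a hyperplane -/

open Matrix

namespace P204

/-- An alternating, `J`-anti-invariant form annihilated by a vector `v` with `n v = 1`,
`n (J v) = 0` vanishes. -/
theorem anti_zero (A : R4 →ₗ[ℝ] R4 →ₗ[ℝ] ℝ) (J : R4 →ₗ[ℝ] R4) (n : R4 →ₗ[ℝ] ℝ) (v : R4)
    (hJ : ∀ u, J (J u) = -u) (hA : ∀ u, A u u = 0) (hAJ : ∀ u w, A (J u) (J w) = -A u w)
    (hv : n v = 1) (hJv : n (J v) = 0) (h0 : ∀ w, A v w = 0) (u w : R4) : A u w = 0 := by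
  have sk : ∀ a b, A a b = -A b a := by
    intro a b
    have h := hA (a + b)
    simp only [map_add, LinearMap.add_apply, hA a, hA b] at h
    linarith
  have aJ : ∀ a, A a (J a) = 0 := by
    intro a
    have h := hAJ a (J a)
    rw [hJ, map_neg, sk (J a) a] at h
    linarith
  have h1 : ∀ w, A (J v) w = 0 := by
    intro w
    have h := hAJ v (-(J w))
    rw [map_neg, hJ, neg_neg] at h
    rw [h, map_neg, h0]
    simp
  have r0 : ∀ w, A w v = 0 := fun w => by rw [sk, h0, neg_zero]
  have r1 : ∀ w, A w (J v) = 0 := fun w => by rw [sk, h1, neg_zero]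
  -- the component of `u` in the complex line
  set u' : R4 := u - n u • v + n (J u) • J v with hu'
  have eu : ∀ w, A u w = A u' w := by
    intro w
    rw [hu']
    simp only [map_add, map_sub, map_smul, LinearMap.add_apply, LinearMap.sub_apply,
      LinearMap.smul_apply, h0, h1]
    simp
  have nu' : n u' = 0 := by
    rw [hu']
    simp only [map_add, map_sub, map_smul, hv, hJv]
    simp
  have nJu' : n (J u') = 0 := by
    rw [hu']
    simp only [map_add, map_sub, map_smul, hJv, hJ, map_neg, hv]
    simp
  rw [eu]
  by_cases hz : u' = 0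
  · rw [hz]; simp
  -- a basis
  have hli : LinearIndependent ℝ ![v, J v, u', J u'] := by
    rw [Fintype.linearIndependent_iff]
    intro g hg
    simp only [Fin.sum_univ_four, Matrix.cons_val] at hg
    have e0 : g 0 = 0 := by
      have := congrArg n hg
      simpa [map_add, map_smul, hv, hJv, nu', nJu'] using this
    have e1 : g 1 = 0 := by
      have := congrArg n (congrArg J hg)
      simpa [map_add, map_smul, hv, hJv, nu', nJu', hJ, e0] using this
    rw [e0, e1] at hg
    simp only [zero_smul, zero_add] at hg
    have hg2 := congrArg J hg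
    simp only [map_add, map_smul, hJ, map_zero] at hg2
    have h3 : (g 2 ^ 2 + g 3 ^ 2) • u' = 0 := by
      have h4 : (g 2 ^ 2 + g 3 ^ 2) • u' = g 2 • (g 2 • u' + g 3 • J u') -
          g 3 • (g 2 • J u' + g 3 • -u') := by
        module
      rw [h4, hg, hg2]
      simp
    have h5 : g 2 ^ 2 + g 3 ^ 2 = 0 := by
      rcases smul_eq_zero.1 h3 with h | h
      · exact h
      · exact absurd h hz
    have e2 : g 2 = 0 := by nlinarith [sq_nonneg (g 2), sq_nonneg (g 3)]
    have e3 : g 3 = 0 := by nlinarith [sq_nonneg (g 2), sq_nonneg (g 3)]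
    intro i
    fin_cases i <;> assumption
  let b := basisOfLinearIndependentOfCardEqFinrank hli (by simp)
  have hb : ∀ w, A u' w = 0 := by
    have : A u' = 0 := by
      apply b.ext
      intro i
      rw [coe_basisOfLinearIndependentOfCardEqFinrank]
      fin_cases i
      · simpa using r0 u'
      · simpa using r1 u'
      · simpa using hA u'
      · simpa using aJ u'
    intro w
    rw [this]
    rfl
  exact hb w

end P204
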