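import Vale.Agent.Lib.P204.PtA
import Vale.Agent.Lib.P204.Avg

/-! # P204: almost complex structures that depend on one coordinate -/

open scoped ContDiff
open Matrix

namespace P204

/-- a smooth function all of whose partial derivatives vanish is constant -/
theorem const_of_D {f : R4 → ℝ} (hf : S f) (h : ∀ i x, D i f x = 0) (x y : R4) : f x = f y := by
  have h1 : ∀ z, fderiv ℝ f z = 0 := by
    intro z
    apply ContinuousLinearMap.ext
    intro v
    have h2 : v = ∑ i, v i • (Pi.single i (1 : ℝ) : R4) := by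
      ext j
      simp [Finset.sum_apply, Pi.single_apply]
    rw [h2, map_sum]
    simp only [map_smul]
    have h3 : ∀ i, fderiv ℝ f z (Pi.single i 1) = 0 := fun i => h i z
    simp [h3]
  exact is_const_of_fderiv_eq_zero (hf.differentiable (by simp)) h1 x y

/-- the averaged form -/
theorem exists_inv {J W : R4 → Matrix (Fin 4) (Fin 4) ℝ}
    (hinv : ∀ (i : Fin 4), i ≠ 0 → ∀ x (t : ℝ), J (x + t • e i) = J x)
    (hW : Symplectic W) (hT : Tames W J) :
    ∃ W1 : R4 → Matrix (Fin 4) (Fin 4) ℝ, SmoothField W1 ∧ (∀ x, (W1 x)ᵀ = -W1 x) ∧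
      (∀ x i j k, D i (fun y => W1 y j k) x + D j (fun y => W1 y k i) x +
        D k (fun y => W1 y i j) x = 0) ∧ Tames W1 J ∧
      ∀ (i : Fin 4), i ≠ 0 → ∀ x (t : ℝ), W1 (x + t • e i) = W1 x := by
  obtain ⟨hs, hk, hc, -⟩ := hW
  have s1 := avgM_smoothField 1 2 hs
  have k1 := avgM_skew 1 2 hk
  have c1 := avgM_closed 1 2 hs hc
  have t1 := avgM_tames 1 2 hs (hinv 1 (by decide)) (hinv 2 (by decide)) hT
  have pW : ∀ i j, Per fun y => W y i j := fun i j y m => by
    show W _ i j = W _ i j
    rw [hs.2 y m]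
  have p1 : ∀ i j, Per fun y => avgM 1 2 W y i j := fun i j y m => by
    show avgM 1 2 W _ i j = avgM 1 2 W _ i j
    rw [s1.2 y m]
  refine ⟨avgM 3 3 (avgM 1 2 W), avgM_smoothField 3 3 s1, avgM_skew 3 3 k1, avgM_closed 3 3 s1 c1,
    avgM_tames 3 3 s1 (hinv 3 (by decide)) (hinv 3 (by decide)) t1, ?_⟩
  intro l hl x t
  ext i j
  show avg2 (fun _ => 1) 3 3 (fun y => avgM 1 2 W y i j) (x + t • e l) =
    avg2 (fun _ => 1) 3 3 (fun y => avgM 1 2 W y i j) x
  fin_cases l
  · exact absurd rfl hl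
  · exact avg2_shift 3 3 (fun y => avg2_indep_a 1 2 (hs.1 i j).continuous (pW i j) y t) x
  · exact avg2_shift 3 3 (fun y => avg2_indep_b 1 2 (hs.1 i j).continuous (pW i j) y t) x
  · exact avg2_indep_a 3 3 (s1.1 i j).continuous (p1 i j) x t

theorem sJ_smooth {J : R4 → Matrix (Fin 4) (Fin 4) ℝ} (hJ : IsACS J) : S fun x => sJ (J x) := by
  have h : ∀ i j, S fun x => J x i j := hJ.1.1
  exact (((h 0 1).pow 2).add ((h 0 2).pow 2)).add ((h 0 3).pow 2)

theorem vJ_smooth {J : R4 → Matrix (Fin 4) (Fin 4) ℝ} (hJ : IsACS J) (i : Fin 4) :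
    S fun x => vJ (J x) i := by
  have h : ∀ i j, S fun x => J x i j := hJ.1.1
  have hs := sJ_smooth hJ
  have hn : ∀ x, sJ (J x) ≠ 0 := fun x => (sJ_pos (hJ.2 x)).ne'
  fin_cases i
  · exact contDiff_const
  · exact (((h 0 0).mul (h 0 1)).neg).div hs hn
  · exact (((h 0 0).mul (h 0 2)).neg).div hs hn
  · exact (((h 0 0).mul (h 0 3)).neg).div hs hn

theorem al_smooth {J : R4 → Matrix (Fin 4) (Fin 4) ℝ} (hJ : IsACS J) (N : Matrix (Fin 4) (Fin 4) ℝ)
    (j : Fin 4) : S fun x => al N (J x) j := by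
  have h : ∀ i j, S fun x => J x i j := hJ.1.1
  have hv := vJ_smooth hJ
  unfold al
  refine ContDiff.neg (ContDiff.sum fun i _ => (hv i).mul (contDiff_const.sub
    (ContDiff.sum fun k _ => ContDiff.sum fun l _ => ((h k i).mul contDiff_const).mul (h l j))))

/-- **Almost complex structures on the four-torus that depend on one coordinate.** -/
theorem familyA {J W : R4 → Matrix (Fin 4) (Fin 4) ℝ} (hJ : IsACS J)
    (hinv : ∀ x y : R4, x 0 = y 0 → J x = J y) (hW : Symplectic W) (hT : Tames W J) :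
    ∃ W', Symplectic W' ∧ Compatible W' J := by
  have hinv' : ∀ (i : Fin 4), i ≠ 0 → ∀ x (t : ℝ), J (x + t • e i) = J x := by
    intro i hi x t
    apply hinv
    simp [e, hi.symm]
  obtain ⟨W1, s1, k1, c1, t1, i1⟩ := exists_inv hinv' hW hT
  have hD : ∀ l i j, l ≠ 0 → ∀ x, D l (fun y => W1 y i j) x = 0 := by
    intro l i j hl x
    refine D_indep (s1.1 i j) (fun y t => ?_) x
    rw [i1 l hl y t]
  have hcst : ∀ i j, i ≠ 0 → j ≠ 0 → ∀ x, W1 x i j = W1 0 i j := by
    intro i j hi hj x
    refine const_of_D (f := fun y => W1 y i j) (s1.1 i j) (fun l y => ?_) x 0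
    by_cases hl : l = 0
    · subst hl
      have h := c1 y 0 i j
      rw [hD i j 0 hi, hD j 0 i hj] at h
      linarith
    · exact hD l i j hl y
  have hskew : ∀ x i j, W1 x j i = -W1 x i j := by
    intro x i j
    have h := congrFun (congrFun (k1 x) i) j
    rwa [Matrix.transpose_apply, Matrix.neg_apply] at h
  have hform : ∀ x, W1 x = skew (W1 x 0 1) (W1 x 0 2) (W1 x 0 3) (W1 0 1 2) (W1 0 1 3) (W1 0 2 3) := by
    intro x
    have d0 : ∀ i, W1 x i i = 0 := fun i => by linarith [hskew x i i]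
    have e12 := hcst 1 2 (by decide) (by decide) x
    have e13 := hcst 1 3 (by decide) (by decide) x
    have e23 := hcst 2 3 (by decide) (by decide) x
    ext i j
    fin_cases i <;> fin_cases j <;> simp [skew, d0, e12, e13, e23, hskew x 0 1, hskew x 0 2,
      hskew x 0 3, hskew x 1 2, hskew x 1 3, hskew x 2 3]
  set b12 := W1 0 1 2
  set b13 := W1 0 1 3
  set b23 := W1 0 2 3
  have cJ : Continuous J := continuous_matrix fun i j => (hJ.1.1 i j).continuous
  have aS := al_smooth hJ (skew 0 0 0 b12 b13 b23)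
  have pJ : ∀ (x : R4) (n : Fin 4 → ℤ), J (x + fun i => (n i : ℝ)) = J x := hJ.1.2
  have cext : Continuous fun x => ext b12 b13 b23 0 (J x) := by
    refine continuous_matrix fun i j => ?_
    have h := fun j => (aS j).continuous
    have h2 : ∀ i j, Continuous fun x => J x i j := fun i j => (hJ.1.1 i j).continuous
    have g : ∀ j, Continuous fun x => al (skew 0 0 0 b12 b13 b23) (J x) j - 0 * J x 0 j := fun j =>
      (h j).sub (continuous_const.mul (h2 0 j))
    fin_cases i <;> fin_cases j <;> simp only [ext, skew] <;>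
      first
        | exact continuous_const
        | exact g 1
        | exact g 2
        | exact g 3
        | exact (g 1).neg
        | exact (g 2).neg
        | exact (g 3).neg
  obtain ⟨C, hC⟩ := compact_form (F := fun x v => v ⬝ᵥ (ext b12 b13 b23 0 (J x) *ᵥ (J x *ᵥ v)))
    (q := fun x v => v 0 ^ 2 + (J x *ᵥ v) 0 ^ 2)
    (by
      exact continuous_snd.dotProduct ((cext.comp continuous_fst).matrix_mulVec
        ((cJ.comp continuous_fst).matrix_mulVec continuous_snd)))
    (by
      have h := (cJ.comp (continuous_fst (X := R4) (Y := R4))).matrix_mulVec continuous_snd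
      exact (((continuous_apply 0).comp continuous_snd).pow 2).add
        (((continuous_apply 0).comp h).pow 2))
    (by
      intro v x n
      simp only [pJ x n])
    (by
      intro v x n
      simp only [pJ x n])
    (by
      intro x t v
      simp only [Matrix.mulVec_smul, dotProduct_smul, smul_dotProduct, smul_eq_mul]
      ring)
    (by
      intro x t v
      simp only [Matrix.mulVec_smul, Pi.smul_apply, smul_eq_mul]
      ring)
    (by intro x v; positivity)
    (by
      intro x v hv hq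
      have h0 : v 0 = 0 := by nlinarith [sq_nonneg (v 0), sq_nonneg ((J x *ᵥ v) 0)]
      have h1 : (J x *ᵥ v) 0 = 0 := by nlinarith [sq_nonneg (v 0), sq_nonneg ((J x *ᵥ v) 0)]
      show 0 < v ⬝ᵥ (ext b12 b13 b23 0 (J x) *ᵥ (J x *ᵥ v))
      rw [ext_hyper b12 b13 b23 0 (J x) v (J x *ᵥ v) h0 h1 (W1 x 0 1) (W1 x 0 2) (W1 x 0 3),
        ← hform x]
      exact t1 x v hv)
  have hT' : Tames (fun x => ext b12 b13 b23 C (J x)) J := by
    intro x v hv
    show 0 < v ⬝ᵥ (ext b12 b13 b23 C (J x) *ᵥ (J x *ᵥ v))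
    rw [ext_pos_apply b12 b13 b23 C (hJ.2 x)]
    exact hC x v hv
  have wS : ∀ j, S fun x => al (skew 0 0 0 b12 b13 b23) (J x) j - C * J x 0 j := fun j =>
    (aS j).sub (contDiff_const.mul (hJ.1.1 0 j))
  have wP : ∀ j, Per fun x => al (skew 0 0 0 b12 b13 b23) (J x) j - C * J x 0 j := fun j x n => by
    simp only [pJ x n]
  have wD : ∀ j l, l ≠ 0 → ∀ x,
      D l (fun x => al (skew 0 0 0 b12 b13 b23) (J x) j - C * J x 0 j) x = 0 := by
    intro j l hl x
    refine D_indep (wS j) (fun y t => ?_) x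
    simp only [hinv' l hl y t]
  refine ⟨fun x => ext b12 b13 b23 C (J x), ⟨?_, ?_, ?_, ?_⟩, hT', ?_⟩
  · exact skewF_smooth (wS 1) (wS 2) (wS 3) contDiff_const contDiff_const contDiff_const (wP 1)
      (wP 2) (wP 3) (fun _ _ => rfl) (fun _ _ => rfl) (fun _ _ => rfl)
  · intro x
    exact skew_transpose _ _ _ _ _ _
  · refine skewF_closed (wS 1) (wS 2) (wS 3) contDiff_const contDiff_const contDiff_const
      ?_ ?_ ?_ ?_
    · intro x
      rw [D_const, wD 2 1 (by decide), wD 1 2 (by decide)]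
      simp
    · intro x
      rw [D_const, wD 3 1 (by decide), wD 1 3 (by decide)]
      simp
    · intro x
      rw [D_const, wD 3 2 (by decide), wD 2 3 (by decide)]
      simp
    · intro x
      rw [D_const, D_const, D_const]
      simp
  · intro x
    exact tames_det hT' x
  · intro x u v
    exact ext_inv b12 b13 b23 C (hJ.2 x) u v

end P204
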