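import Vale.Agent.Lib.P204.Basic
import Vale.Agent.Lib.P205T.FD

/-! # P204: a continuous kernel that inverts the squared Laplacian on the two-torus

MODULE Pois2D. `kap n = (4 π² (n₁² + n₂²))⁻²` for `n ≠ 0`, `kap 0 = 0`, and
`ker (s, t) = ∑ₙ kap n cos (2π (n₁ s + n₂ t))`. The series converges absolutely (compare with
`P205T.summable_nn`, `nn n = |n₁| + |n₂|`, `n₁² + n₂² ≥ nn² / 2`), so `ker` is continuous.
For a smooth periodic complex function `P : PC` (algebra of `P205T.Defs`) and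
`lap P = dvC (1,0) (dvC (1,0) P) + dvC (0,1) (dvC (0,1) P)`:
`∫∫ ker * lap (lap P) = P 0 - cf P 0`, because `cf (lap P) n = -4π²|n|² cf P n` (`cf_dvC`),
`∑ cf P n * ev n 0 = P 0` (`hasSum_cf`), `ev n 0 = 1`, and `∫∫ ev (-n) * g = cf g n`
(replace `cos` by the average of `ev n` and `ev (-n)`; `kap` is even).
The real version `ker_real` follows with `P = toC`-type embedding of a real function.
-/

open scoped ContDiff
open MeasureTheory P205T

namespace P204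

private theorem Pois_iter {f : ℝ × ℝ → ℂ} (hf : Continuous f) :
    ∫ p in Set.Icc (0 : ℝ × ℝ) 1, f p = ∫ x in (0 : ℝ)..1, ∫ y in (0 : ℝ)..1, f (x, y) := by
  have e : Set.Icc (0 : ℝ × ℝ) 1 = Set.Icc (0 : ℝ) 1 ×ˢ Set.Icc (0 : ℝ) 1 := Set.Icc_prod_eq _ _
  rw [e, Measure.volume_eq_prod, setIntegral_prod]
  · rw [intervalIntegral.integral_of_le zero_le_one, ← integral_Icc_eq_integral_Ioc]
    refine integral_congr_ae (Filter.Eventually.of_forall fun x => ?_)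
    change ∫ y in Set.Icc (0 : ℝ) 1, f (x, y) = ∫ y in (0 : ℝ)..1, f (x, y)
    rw [intervalIntegral.integral_of_le zero_le_one, ← integral_Icc_eq_integral_Ioc]
  · rw [← Measure.volume_eq_prod]
    exact hf.continuousOn.integrableOn_compact (isCompact_Icc.prod isCompact_Icc)

private theorem Pois_cf (Q : PC) (n : ℤ × ℤ) :
    cf Q n = ∫ p in Set.Icc (0 : ℝ × ℝ) 1, Q p * ev (-n) p :=
  (Pois_iter (f := fun p => Q p * ev (-n) p)
    ((PC.smooth Q).continuous.mul (PC.smooth (ev (-n))).continuous)).symm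

/-- the symbol of the inverse of the squared Laplacian (zero at zero) -/
noncomputable def Pois_kap (n : ℤ × ℤ) : ℝ :=
  ((4 * Real.pi ^ 2 * ((n.1 : ℝ) ^ 2 + (n.2 : ℝ) ^ 2)) ^ 2)⁻¹

private theorem Pois_kap_nonneg (n : ℤ × ℤ) : 0 ≤ Pois_kap n := by
  unfold Pois_kap
  positivity

private theorem Pois_q_pos {n : ℤ × ℤ} (hn : n ≠ 0) :
    0 < (n.1 : ℝ) ^ 2 + (n.2 : ℝ) ^ 2 ∧ 1 ≤ nn n := by
  have h1 : n.1 ≠ 0 ∨ n.2 ≠ 0 := by
    by_contra h
    push Not at h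
    exact hn (Prod.ext h.1 h.2)
  have a1 := abs_nonneg (n.1 : ℝ)
  have a2 := abs_nonneg (n.2 : ℝ)
  have hnn : nn n = |(n.1 : ℝ)| + |(n.2 : ℝ)| := rfl
  rcases h1 with h1 | h1
  · have h2 : (1 : ℝ) ≤ |(n.1 : ℝ)| := by
      have h3 : (1 : ℤ) ≤ |n.1| := Int.one_le_abs h1
      exact_mod_cast h3
    refine ⟨?_, by rw [hnn]; linarith⟩
    have h3 : (n.1 : ℝ) ≠ 0 := by exact_mod_cast h1
    positivity
  · have h2 : (1 : ℝ) ≤ |(n.2 : ℝ)| := by
      have h3 : (1 : ℤ) ≤ |n.2| := Int.one_le_abs h1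
      exact_mod_cast h3
    refine ⟨?_, by rw [hnn]; linarith⟩
    have h3 : (n.2 : ℝ) ≠ 0 := by exact_mod_cast h1
    positivity

private theorem Pois_kap_le (n : ℤ × ℤ) : Pois_kap n ≤ 64 * ((1 + nn n) ^ 4)⁻¹ := by
  have hnn0 := nn_nonneg n
  by_cases hn : n = 0
  · rw [hn]
    unfold Pois_kap
    simp only [Prod.fst_zero, Prod.snd_zero, Int.cast_zero]
    have : (0 : ℝ) ≤ 64 * ((1 + nn 0) ^ 4)⁻¹ := by
      have := nn_nonneg 0
      positivity
    simpa using this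
  · obtain ⟨hq, h1⟩ := Pois_q_pos hn
    obtain ⟨q, hqq⟩ : ∃ q : ℝ, q = (n.1 : ℝ) ^ 2 + (n.2 : ℝ) ^ 2 := ⟨_, rfl⟩
    unfold Pois_kap
    rw [← hqq] at hq ⊢
    have hnn : nn n ^ 2 ≤ 2 * q := by
      have e : nn n = |(n.1 : ℝ)| + |(n.2 : ℝ)| := rfl
      rw [e, hqq, ← sq_abs (n.1 : ℝ), ← sq_abs (n.2 : ℝ)]
      nlinarith [sq_nonneg (|(n.1 : ℝ)| - |(n.2 : ℝ)|)]
    have h2 : (1 + nn n) ^ 2 ≤ 8 * q := by nlinarith
    have h3 : (1 + nn n) ^ 4 ≤ 64 * (4 * Real.pi ^ 2 * q) ^ 2 := by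
      have h4 : (1 + nn n) ^ 4 = ((1 + nn n) ^ 2) ^ 2 := by ring
      have h5 : ((1 + nn n) ^ 2) ^ 2 ≤ (8 * q) ^ 2 := pow_le_pow_left₀ (by positivity) h2 2
      have h6 : q ≤ 4 * Real.pi ^ 2 * q := by
        have h7 := Real.pi_gt_three
        have h8 : 1 ≤ 4 * Real.pi ^ 2 := by nlinarith
        exact le_mul_of_one_le_left hq.le h8
      have h7 : q ^ 2 ≤ (4 * Real.pi ^ 2 * q) ^ 2 := pow_le_pow_left₀ hq.le h6 2
      rw [h4]
      nlinarith
    have h8 : 0 < (4 * Real.pi ^ 2 * q) ^ 2 := by positivity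
    have h9 : 0 < (1 + nn n) ^ 4 := by positivity
    rw [← div_eq_mul_inv, le_div_iff₀ h9, inv_mul_le_iff₀ h8]
    linarith

private theorem Pois_kap_summable : Summable Pois_kap :=
  Summable.of_nonneg_of_le Pois_kap_nonneg Pois_kap_le (summable_nn.mul_left 64)

/-- the kernel -/
noncomputable def Pois_K (p : ℝ × ℝ) : ℂ := ∑' n, (Pois_kap n : ℂ) * ev n p

private theorem Pois_norm (n : ℤ × ℤ) (p : ℝ × ℝ) : ‖(Pois_kap n : ℂ) * ev n p‖ ≤ Pois_kap n := by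
  rw [norm_mul, fa2_ev_norm, mul_one, Complex.norm_real, Real.norm_eq_abs,
    abs_of_nonneg (Pois_kap_nonneg n)]

private theorem Pois_K_cont : Continuous Pois_K :=
  continuous_tsum (fun n => continuous_const.mul (PC.smooth (ev n)).continuous)
    Pois_kap_summable Pois_norm

private theorem Pois_K_hasSum (p : ℝ × ℝ) : HasSum (fun n => (Pois_kap n : ℂ) * ev n p) (Pois_K p) :=
  (Summable.of_norm_bounded Pois_kap_summable fun n => Pois_norm n p).hasSum

/-- the Laplacian -/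
noncomputable def Pois_lap (P : PC) : PC :=
  dvC (1, 0) (dvC (1, 0) P) + dvC (0, 1) (dvC (0, 1) P)

private theorem Pois_cf_lap (P : PC) (n : ℤ × ℤ) : cf (Pois_lap P) n =
    -((4 * Real.pi ^ 2 * ((n.1 : ℝ) ^ 2 + (n.2 : ℝ) ^ 2) : ℝ) : ℂ) * cf P n := by
  unfold Pois_lap
  rw [cf_add, cf_dvC, cf_dvC, cf_dvC, cf_dvC]
  have d1 : dotZ n (1, 0) = n.1 := by simp [dotZ]
  have d2 : dotZ n (0, 1) = n.2 := by simp [dotZ]
  rw [d1, d2]
  push_cast
  linear_combination (4 * (Real.pi : ℂ) ^ 2 * ((n.1 : ℂ) ^ 2 + (n.2 : ℂ) ^ 2) * cf P n) *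
    Complex.I_sq

private theorem Pois_main (P : PC) :
    ∫ p in Set.Icc (0 : ℝ × ℝ) 1, Pois_K p * Pois_lap (Pois_lap P) p = P 0 - cf P 0 := by
  obtain ⟨Q, hQ⟩ : ∃ Q : PC, Q = Pois_lap (Pois_lap P) := ⟨_, rfl⟩
  rw [← hQ]
  obtain ⟨B, hB0, hB⟩ := bounded_PC Q
  have hQc : Continuous (Q : ℝ × ℝ → ℂ) := (PC.smooth Q).continuous
  have hcont : ∀ n, Continuous (fun p : ℝ × ℝ => (Pois_kap n : ℂ) * ev n p * Q p) := fun n =>
    (continuous_const.mul (PC.smooth (ev n)).continuous).mul hQc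
  have h1 : HasSum (fun n => ∫ p in Set.Icc (0 : ℝ × ℝ) 1, (Pois_kap n : ℂ) * ev n p * Q p)
      (∫ p in Set.Icc (0 : ℝ × ℝ) 1, Pois_K p * Q p) := by
    refine hasSum_integral_of_dominated_convergence (fun n _ => Pois_kap n * B)
      (fun n => (hcont n).aestronglyMeasurable) (fun n => Filter.Eventually.of_forall fun p => ?_)
      (Filter.Eventually.of_forall fun p => Pois_kap_summable.mul_right B) ?_
      (Filter.Eventually.of_forall fun p => (Pois_K_hasSum p).mul_right _)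
    · rw [norm_mul]
      exact mul_le_mul (Pois_norm n p) (hB p) (norm_nonneg _) (Pois_kap_nonneg n)
    · have : IntegrableOn (fun _ : ℝ × ℝ => ∑' n, Pois_kap n * B) (Set.Icc (0 : ℝ × ℝ) 1) :=
        continuous_const.continuousOn.integrableOn_compact isCompact_Icc
      exact this
  have h2 : ∀ n, ∫ p in Set.Icc (0 : ℝ × ℝ) 1, (Pois_kap n : ℂ) * ev n p * Q p =
      cf P (-n) - if n = 0 then cf P 0 else 0 := by
    intro n
    have e1 : ∫ p in Set.Icc (0 : ℝ × ℝ) 1, (Pois_kap n : ℂ) * ev n p * Q p =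
        (Pois_kap n : ℂ) * cf Q (-n) := by
      have e2 : (fun p : ℝ × ℝ => (Pois_kap n : ℂ) * ev n p * Q p) =
          fun p => (Pois_kap n : ℂ) * (Q p * ev (-(-n)) p) := by
        funext p
        rw [neg_neg]
        ring
      rw [e2, integral_const_mul, Pois_cf]
    rw [e1, hQ, Pois_cf_lap, Pois_cf_lap]
    by_cases hn : n = 0
    · rw [if_pos hn, hn, neg_zero, sub_self]
      unfold Pois_kap
      simp
    · rw [if_neg hn, sub_zero]
      obtain ⟨hq, -⟩ := Pois_q_pos hn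
      unfold Pois_kap
      have hpi := Real.pi_pos
      have h3 : (4 * Real.pi ^ 2 * ((n.1 : ℝ) ^ 2 + (n.2 : ℝ) ^ 2)) ≠ 0 := by positivity
      have h4 : (((4 * Real.pi ^ 2 * ((n.1 : ℝ) ^ 2 + (n.2 : ℝ) ^ 2)) ^ 2)⁻¹ : ℝ) *
          (4 * Real.pi ^ 2 * ((n.1 : ℝ) ^ 2 + (n.2 : ℝ) ^ 2)) ^ 2 = 1 :=
        inv_mul_cancel₀ (pow_ne_zero 2 h3)
      have h5 := congrArg (fun r : ℝ => (r : ℂ)) h4
      simp only [Complex.ofReal_mul, Complex.ofReal_one, Complex.ofReal_pow] at h5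
      simp only [Prod.fst_neg, Prod.snd_neg, Int.cast_neg, neg_sq]
      push_cast at h5 ⊢
      linear_combination (cf P (-n)) * h5
  have h3 : HasSum (fun n => cf P (-n) - if n = 0 then cf P 0 else 0) (P 0 - cf P 0) := by
    have e1 : HasSum (fun n => cf P n) (P 0) := by
      have e2 := hasSum_cf P 0
      have e3 : (fun n => cf P n * ev n 0) = fun n => cf P n := by
        funext n
        rw [ev_apply]
        simp
      rw [e3] at e2
      exact e2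
    have e4 : HasSum (fun n => cf P (-n)) (P 0) := (Equiv.neg (ℤ × ℤ)).hasSum_iff.2 e1
    exact e4.sub (hasSum_ite_eq 0 (cf P 0))
  simp only [h2] at h1
  exact h1.unique h3

private theorem Pois_toC_dv (a : ℝ × ℝ) (f : PR) : toC (dv a f) = dvC a (toC f) := by
  ext x
  rw [toC_apply, dv_apply, dvC_apply]
  have h := (PR.smooth f).differentiable (by simp) x
  have : HasFDerivAt (toC f : ℝ × ℝ → ℂ) (Complex.ofRealCLM.comp (fderiv ℝ f x)) x :=
    Complex.ofRealCLM.hasFDerivAt.comp x h.hasFDerivAt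
  rw [this.fderiv]
  rfl

/-- There is a continuous weight on the unit square that inverts the squared Laplacian on smooth
periodic functions of two variables, up to the mean value. `g` is any smooth `ℤ²`-periodic real
function and `L L g` its squared Laplacian, given by iterated directional derivatives. -/
theorem exists_kernel : ∃ k : ℝ × ℝ → ℝ, Continuous k ∧
    ∀ g : ℝ × ℝ → ℝ, ContDiff ℝ ∞ g → (∀ (x : ℝ × ℝ) (m n : ℤ), g (x + ((m : ℝ), (n : ℝ))) = g x) →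
      ∀ g1 g2 : ℝ × ℝ → ℝ,
      (∀ x, g1 x = fderiv ℝ (fun y => fderiv ℝ g y (1, 0)) x (1, 0) +
        fderiv ℝ (fun y => fderiv ℝ g y (0, 1)) x (0, 1)) →
      (∀ x, g2 x = fderiv ℝ (fun y => fderiv ℝ g1 y (1, 0)) x (1, 0) +
        fderiv ℝ (fun y => fderiv ℝ g1 y (0, 1)) x (0, 1)) →
      ∫ p in Set.Icc (0 : ℝ × ℝ) 1, k p * g2 p = g 0 - ∫ p in Set.Icc (0 : ℝ × ℝ) 1, g p := by
  refine ⟨fun p => (Pois_K p).re, Complex.continuous_re.comp Pois_K_cont, ?_⟩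
  intro g hg hper g1 g2 hg1 hg2
  obtain ⟨G, hG⟩ : ∃ G : PR, ∀ x, G x = g x := ⟨⟨g, hg, fun x n => hper x n.1 n.2⟩, fun x => rfl⟩
  obtain ⟨G1, hG1⟩ : ∃ G1 : PR, G1 = dv (1, 0) (dv (1, 0) G) + dv (0, 1) (dv (0, 1) G) := ⟨_, rfl⟩
  obtain ⟨G2, hG2⟩ : ∃ G2 : PR, G2 = dv (1, 0) (dv (1, 0) G1) + dv (0, 1) (dv (0, 1) G1) :=
    ⟨_, rfl⟩
  have eg : (G : ℝ × ℝ → ℝ) = g := funext hG
  have eg1 : (G1 : ℝ × ℝ → ℝ) = g1 := by
    funext x
    rw [hg1 x, hG1, ← eg]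
    rfl
  have eg2 : (G2 : ℝ × ℝ → ℝ) = g2 := by
    funext x
    rw [hg2 x, hG2, ← eg1]
    rfl
  have hl1 : toC G1 = Pois_lap (toC G) := by
    rw [hG1, map_add, Pois_toC_dv, Pois_toC_dv, Pois_toC_dv, Pois_toC_dv]
    rfl
  have hl2 : toC G2 = Pois_lap (Pois_lap (toC G)) := by
    rw [← hl1, hG2, map_add, Pois_toC_dv, Pois_toC_dv, Pois_toC_dv, Pois_toC_dv]
    rfl
  have hmain := Pois_main (toC G)
  rw [← hl2] at hmain
  have hcont : Continuous fun p => Pois_K p * toC G2 p :=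
    Pois_K_cont.mul (PC.smooth (toC G2)).continuous
  have hint : IntegrableOn (fun p => Pois_K p * toC G2 p) (Set.Icc (0 : ℝ × ℝ) 1) :=
    hcont.continuousOn.integrableOn_compact isCompact_Icc
  have h1 : ∫ p in Set.Icc (0 : ℝ × ℝ) 1, (Pois_K p).re * g2 p =
      (∫ p in Set.Icc (0 : ℝ × ℝ) 1, Pois_K p * toC G2 p).re := by
    have h2 := Complex.reCLM.integral_comp_comm hint
    refine Eq.trans ?_ h2
    refine integral_congr_ae (Filter.Eventually.of_forall fun p => ?_)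
    change (Pois_K p).re * g2 p = (Pois_K p * toC G2 p).re
    rw [toC_apply, Complex.re_mul_ofReal, ← eg2]
  have h2 : cf (toC G) 0 = ((∫ p in Set.Icc (0 : ℝ × ℝ) 1, g p : ℝ) : ℂ) := by
    rw [Pois_cf, ← integral_complex_ofReal]
    refine integral_congr_ae (Filter.Eventually.of_forall fun p => ?_)
    change toC G p * ev (-0) p = ((g p : ℝ) : ℂ)
    rw [neg_zero, ev_zero, PC.one_apply, mul_one, toC_apply, hG]
  change ∫ p in Set.Icc (0 : ℝ × ℝ) 1, (Pois_K p).re * g2 p = _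
  rw [h1, hmain, h2, Complex.sub_re, Complex.ofReal_re, toC_apply, Complex.ofReal_re, hG]

end P204
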