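import Vale.Agent.Lib.P204.Avg
import Vale.Agent.Lib.P204.Pois2D

/-! # P204: the Poisson equation in two coordinate directions with smooth dependence on parameters

MODULE Pois (independent of the proofs of ParInt, Avg, Pois2D: use their statements).
With `k` from `exists_kernel` put `w = avg2 k a b f` and `u = D a (D a w) + D b (D b w)`.
`D` commutes with `avg2 k a b` (`D_avg2`), so `Δ u = avg2 k a b (Δ Δ f)` with
`Δ f = D a (D a f) + D b (D b f)`; for fixed `x` the function `g (s, t) = f (x + s • e a + t • e b)` is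
smooth and `ℤ²`-periodic, and its squared Laplacian at `(s, t)` is `(Δ Δ f) (x + s • e a + t • e b)`.
-/

open scoped ContDiff
open MeasureTheory

namespace P204

/-- the restriction of a function to a plane in the directions `a`, `b` -/
private noncomputable def poisSl (a b : Fin 4) (x : R4) (f : R4 → ℝ) (p : ℝ × ℝ) : ℝ :=
  f (x + p.1 • e a + p.2 • e b)

private theorem poisSl_smooth (a b : Fin 4) (x : R4) {f : R4 → ℝ} (hf : S f) :
    ContDiff ℝ ∞ (poisSl a b x f) := by
  unfold poisSl
  exact hf.comp ((contDiff_const.add (contDiff_fst.smul contDiff_const)).add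
    (contDiff_snd.smul contDiff_const))

private theorem poisSl_fderiv (a b : Fin 4) (x : R4) {f : R4 → ℝ} (hf : S f) (y : ℝ × ℝ)
    (c d : ℝ) : fderiv ℝ (poisSl a b x f) y (c, d)
      = fderiv ℝ f (x + y.1 • e a + y.2 • e b) (c • e a + d • e b) := by
  have h1 := hasFDerivAt hf (x + y.1 • e a + y.2 • e b)
  have h2 : HasFDerivAt (fun p : ℝ × ℝ => x + p.1 • e a + p.2 • e b)
      ((ContinuousLinearMap.fst ℝ ℝ ℝ).smulRight (e a) +
        (ContinuousLinearMap.snd ℝ ℝ ℝ).smulRight (e b)) y := by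
    have ha : HasFDerivAt (fun p : ℝ × ℝ => p.1 • e a)
        ((ContinuousLinearMap.fst ℝ ℝ ℝ).smulRight (e a)) y :=
      (hasFDerivAt_fst (𝕜 := ℝ) (p := y)).smul_const (e a)
    have hb : HasFDerivAt (fun p : ℝ × ℝ => p.2 • e b)
        ((ContinuousLinearMap.snd ℝ ℝ ℝ).smulRight (e b)) y :=
      (hasFDerivAt_snd (𝕜 := ℝ) (p := y)).smul_const (e b)
    exact (ha.const_add x).add hb
  have h3 : HasFDerivAt (poisSl a b x f) _ y := h1.comp y h2
  rw [h3.fderiv]
  simp

private theorem poisSl_fderiv_fst (a b : Fin 4) (x : R4) {f : R4 → ℝ} (hf : S f) :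
    (fun y => fderiv ℝ (poisSl a b x f) y (1, 0)) = poisSl a b x (D a f) := by
  funext y
  rw [poisSl_fderiv a b x hf y 1 0, one_smul, zero_smul, add_zero]
  rfl

private theorem poisSl_fderiv_snd (a b : Fin 4) (x : R4) {f : R4 → ℝ} (hf : S f) :
    (fun y => fderiv ℝ (poisSl a b x f) y (0, 1)) = poisSl a b x (D b f) := by
  funext y
  rw [poisSl_fderiv a b x hf y 0 1, one_smul, zero_smul, zero_add]
  rfl

/-- the Laplacian in the directions `a`, `b` -/
private noncomputable def poisLap (a b : Fin 4) (f : R4 → ℝ) (x : R4) : ℝ :=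
  D a (D a f) x + D b (D b f) x

private theorem poisLap_smooth (a b : Fin 4) {f : R4 → ℝ} (hf : S f) : S (poisLap a b f) :=
  (D_smooth (D_smooth hf a) a).add (D_smooth (D_smooth hf b) b)

private theorem poisLap_per (a b : Fin 4) {f : R4 → ℝ} (hf : Per f) : Per (poisLap a b f) := by
  intro x n
  unfold poisLap
  rw [D_per (D_per hf a) a x n, D_per (D_per hf b) b x n]

private theorem pois_D_shift {f : R4 → ℝ} {v : R4} (h : ∀ x, f (x + v) = f x) (i : Fin 4)
    (x : R4) : D i f (x + v) = D i f x := by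
  unfold D
  have h2 : f = fun y => f (y + v) := by
    funext y
    exact (h y).symm
  conv_rhs => rw [h2]
  rw [fderiv_comp_add_right]

private theorem poisLap_shift (a b : Fin 4) {f : R4 → ℝ} {v : R4} (h : ∀ x, f (x + v) = f x)
    (x : R4) : poisLap a b f (x + v) = poisLap a b f x := by
  unfold poisLap
  rw [pois_D_shift (fun y => pois_D_shift h a y) a x,
    pois_D_shift (fun y => pois_D_shift h b y) b x]

private theorem poisSl_lap (a b : Fin 4) (x : R4) {f : R4 → ℝ} (hf : S f) (y : ℝ × ℝ) :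
    poisSl a b x (poisLap a b f) y
      = fderiv ℝ (fun z => fderiv ℝ (poisSl a b x f) z (1, 0)) y (1, 0) +
        fderiv ℝ (fun z => fderiv ℝ (poisSl a b x f) z (0, 1)) y (0, 1) := by
  rw [poisSl_fderiv_fst a b x hf, poisSl_fderiv_snd a b x hf]
  have h1 := congrFun (poisSl_fderiv_fst a b x (D_smooth hf a)) y
  have h2 := congrFun (poisSl_fderiv_snd a b x (D_smooth hf b)) y
  rw [h1, h2]
  rfl

private theorem poisSl_per (a b : Fin 4) (x : R4) {f : R4 → ℝ} (hp : Per f) (y : ℝ × ℝ)
    (m n : ℤ) : poisSl a b x f (y + ((m : ℝ), (n : ℝ))) = poisSl a b x f y := by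
  unfold poisSl
  have h := hp (x + y.1 • e a + y.2 • e b) (fun i => m * (Pi.single a 1 : Fin 4 → ℤ) i +
    n * (Pi.single b 1 : Fin 4 → ℤ) i)
  rw [← h]
  congr 1
  funext i
  have hs : ∀ (c : Fin 4), (((Pi.single c 1 : Fin 4 → ℤ) i : ℤ) : ℝ) = e c i := by
    intro c
    unfold e
    by_cases hi : i = c
    · subst hi; simp
    · simp [hi]
  simp only [Pi.add_apply, Pi.smul_apply, smul_eq_mul, Prod.fst_add, Prod.snd_add, Int.cast_add,
    Int.cast_mul, hs]
  ring

theorem poisson (a b : Fin 4) {f : R4 → ℝ} (hf : S f) (hp : Per f) :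
    ∃ u : R4 → ℝ, S u ∧ Per u ∧
      (∀ x, D a (D a u) x + D b (D b u) x = f x - avg2 (fun _ => 1) a b f x) ∧
      ∀ v : R4, (∀ x, f (x + v) = f x) → ∀ x, u (x + v) = u x := by
  obtain ⟨k, hk, hker⟩ := exists_kernel
  have hF1 : S (poisLap a b f) := poisLap_smooth a b hf
  have hD : ∀ (i : Fin 4) {g : R4 → ℝ}, S g → D i (D i (avg2 k a b g)) = avg2 k a b (D i (D i g)) := by
    intro i g hg
    have h1 : D i (avg2 k a b g) = avg2 k a b (D i g) := funext fun x => D_avg2 hk a b hg i x
    rw [h1]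
    exact funext fun x => D_avg2 hk a b (D_smooth hg i) i x
  refine ⟨avg2 k a b (poisLap a b f), avg2_smooth hk a b hF1, avg2_per a b (poisLap_per a b hp),
    ?_, ?_⟩
  · intro x
    rw [hD a hF1, hD b hF1, ← avg2_add hk a b (D_smooth (D_smooth hF1 a) a).continuous
      (D_smooth (D_smooth hF1 b) b).continuous x]
    have h := hker (poisSl a b x f) (poisSl_smooth a b x hf) (fun y m n => poisSl_per a b x hp y m n)
      (poisSl a b x (poisLap a b f)) (poisSl a b x (poisLap a b (poisLap a b f)))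
      (fun y => poisSl_lap a b x hf y) (fun y => poisSl_lap a b x hF1 y)
    have h0 : poisSl a b x f 0 = f x := by
      unfold poisSl
      simp
    rw [h0] at h
    have h1 : avg2 (fun _ => 1) a b f x = ∫ p in Set.Icc (0 : ℝ × ℝ) 1, poisSl a b x f p := by
      unfold avg2 poisSl
      simp only [one_mul]
    rw [h1]
    exact h
  · intro v hv x
    exact avg2_shift a b (fun y => poisLap_shift a b hv y) x

end P204
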