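import Vale.Agent.Lib.P204.Form
import Vale.Agent.Lib.P204.Pois

/-! # P204: holomorphic fibrations of the four-torus -/

open scoped ContDiff
open Matrix

namespace P204

theorem per_avg {k : ℝ × ℝ → ℝ} {a b : Fin 4} {f : R4 → ℝ} (hf : Per f) : Per (avg2 k a b f) :=
  avg2_per a b hf

/-- the almost complex structure with two free functions -/
def JAB (A B : R4 → ℝ) (x : R4) : Matrix (Fin 4) (Fin 4) ℝ :=
  !![0, -1, 0, 0; 1, 0, 0, 0; -B x, A x, 0, -1; A x, B x, 1, 0]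

theorem J_form {J : R4 → Matrix (Fin 4) (Fin 4) ℝ} (hJ : IsACS J)
    (h0 : ∀ x v, (J x *ᵥ v) 0 = -v 1) (h2 : ∀ x, J x *ᵥ Pi.single 2 1 = Pi.single 3 1) (x : R4) :
    J x = JAB (fun x => J x 2 1) (fun x => -J x 2 0) x := by
  have hs := hJ.2 x
  have r : ∀ j, J x 0 j = -(Pi.single j (1 : ℝ) : R4) 1 := by
    intro j
    have := h0 x (Pi.single j 1)
    rwa [Matrix.mulVec_single_one] at this
  have r0 := r 0
  have r1 := r 1
  have r2 := r 2
  have r3 := r 3
  have c := h2 x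
  rw [Matrix.mulVec_single_one] at c
  have c0 : J x 0 2 = 0 := by simpa using congrFun c 0
  have c1 : J x 1 2 = 0 := by simpa using congrFun c 1
  have c2 : J x 2 2 = 0 := by simpa using congrFun c 2
  have c3 : J x 3 2 = 1 := by simpa using congrFun c 3
  simp at r0 r1 r2 r3
  have s : ∀ i j, (J x * J x) i j = (-1 : Matrix (Fin 4) (Fin 4) ℝ) i j := fun i j => by rw [hs]
  simp only [Matrix.mul_apply, Fin.sum_univ_four, Matrix.neg_apply] at s
  have s00 := s 0 0
  have s01 := s 0 1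
  have s02 := s 0 2
  have s03 := s 0 3
  have s12 := s 1 2
  have s20 := s 2 0
  have s21 := s 2 1
  have s22 := s 2 2
  have s32 := s 3 2
  simp [r0, r1, r2, r3, c1, c2, c3] at s00 s01 s03 s12 s20 s21 s22 s32
  rw [s00, s22] at s20
  rw [s01, s22] at s21
  ext i j
  fin_cases i <;> fin_cases j <;> simp [JAB, r0, r1, r2, r3, c1, c2, c3] <;> linarith

theorem D_lin5 {f g h k l : R4 → ℝ} (hf : S f) (hg : S g) (hh : S h) (hk : S k) (hl : S l)
    (α β γ δ ε : ℝ) (i : Fin 4) (x : R4) :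
    D i (fun y => α * f y + β * g y + γ * h y + δ * k y + ε * l y) x =
      α * D i f x + β * D i g x + γ * D i h x + δ * D i k x + ε * D i l x := by
  have h1 : S fun y => α * f y + β * g y + γ * h y :=
    ((contDiff_const.mul hf).add (contDiff_const.mul hg)).add (contDiff_const.mul hh)
  have h2 : S fun y => δ * k y := contDiff_const.mul hk
  have h3 : S fun y => ε * l y := contDiff_const.mul hl
  have h4 : S fun y => α * f y + β * g y + γ * h y + δ * k y := h1.add h2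
  rw [D_add h4 h3, D_add h1 h2, D_lin3 hf hg hh, D_mul_const hk, D_mul_const hl]

theorem t12 {g : R4 → ℝ} (hg : S g) (i j k : Fin 4) (x : R4) :
    D i (D j (D k g)) x = D j (D i (D k g)) x := D_comm (D_smooth hg k) i j x

theorem t23 {g : R4 → ℝ} (hg : S g) (i j k : Fin 4) (x : R4) :
    D i (D j (D k g)) x = D i (D k (D j g)) x := by
  have h : D j (D k g) = D k (D j g) := funext fun y => D_comm hg j k y
  rw [h]

theorem indep_D {f : R4 → ℝ} {v : R4} (h : ∀ x, f (x + v) = f x) (i : Fin 4) (x : R4) :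
    D i f (x + v) = D i f x := by
  unfold D
  have h2 : f = fun y => f (y + v) := by
    funext y
    exact (h y).symm
  conv_rhs => rw [h2]
  rw [fderiv_comp_add_right]

theorem lin5_smooth {f g h k l : R4 → ℝ} (hf : S f) (hg : S g) (hh : S h) (hk : S k) (hl : S l)
    (α β γ δ ε : ℝ) : S (fun y => α * f y + β * g y + γ * h y + δ * k y + ε * l y) :=
  ((((contDiff_const.mul hf).add (contDiff_const.mul hg)).add (contDiff_const.mul hh)).add
    (contDiff_const.mul hk)).add (contDiff_const.mul hl)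

theorem lin5_per {f g h k l : R4 → ℝ} (hf : Per f) (hg : Per g) (hh : Per h) (hk : Per k)
    (hl : Per l) (α β γ δ ε : ℝ) :
    Per (fun y => α * f y + β * g y + γ * h y + δ * k y + ε * l y) := by
  intro x n
  simp only [hf x n, hg x n, hh x n, hk x n, hl x n]

/-- the closed invariant form, up to a large multiple of `dx₀ ∧ dx₁` -/
theorem main_form {A B : R4 → ℝ} (hA : S A) (hB : S B) (pA : Per A) (pB : Per B) :
    ∃ w01 w02 w03 w12 w13 : R4 → ℝ, (S w01 ∧ S w02 ∧ S w03 ∧ S w12 ∧ S w13) ∧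
      (Per w01 ∧ Per w02 ∧ Per w03 ∧ Per w12 ∧ Per w13) ∧
      (∀ x, w12 x + w03 x = 2 * A x) ∧ (∀ x, w13 x - w02 x = 2 * B x) ∧
      (∀ x, D 0 w12 x - D 1 w02 x + D 2 w01 x = 0) ∧
      (∀ x, D 0 w13 x - D 1 w03 x + D 3 w01 x = 0) ∧
      (∀ x, -D 2 w03 x + D 3 w02 x = 0) ∧
      (∀ x, -D 2 w13 x + D 3 w12 x = 0) := by
  obtain ⟨u, su, pu, eu, -⟩ := poisson 2 3 hA pA
  obtain ⟨v, sv, pv, ev, -⟩ := poisson 2 3 hB pB
  have hone : Continuous fun _ : ℝ × ℝ => (1 : ℝ) := continuous_const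
  set A0 : R4 → ℝ := avg2 (fun _ => 1) 2 3 A with hA0
  set B0 : R4 → ℝ := avg2 (fun _ => 1) 2 3 B with hB0
  have sA0 : S A0 := avg2_smooth hone 2 3 hA
  have sB0 : S B0 := avg2_smooth hone 2 3 hB
  have pA0 : Per A0 := avg2_per 2 3 pA
  have pB0 : Per B0 := avg2_per 2 3 pB
  have iA2 : ∀ x (t : ℝ), A0 (x + t • e 2) = A0 x := avg2_indep_a 2 3 hA.continuous pA
  have iA3 : ∀ x (t : ℝ), A0 (x + t • e 3) = A0 x := avg2_indep_b 2 3 hA.continuous pA
  have iB2 : ∀ x (t : ℝ), B0 (x + t • e 2) = B0 x := avg2_indep_a 2 3 hB.continuous pB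
  have iB3 : ∀ x (t : ℝ), B0 (x + t • e 3) = B0 x := avg2_indep_b 2 3 hB.continuous pB
  obtain ⟨U, sU, pU, eU, iU⟩ := poisson 0 1 sA0 pA0
  obtain ⟨V, sV, pV, eV, iV⟩ := poisson 0 1 sB0 pB0
  set mA : R4 → ℝ := avg2 (fun _ => 1) 0 1 A0 with hmA
  set mB : R4 → ℝ := avg2 (fun _ => 1) 0 1 B0 with hmB
  have smA : S mA := avg2_smooth hone 0 1 sA0
  have smB : S mB := avg2_smooth hone 0 1 sB0
  have pmA : Per mA := avg2_per 0 1 pA0
  have pmB : Per mB := avg2_per 0 1 pB0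
  have dmA : ∀ i x, D i mA x = 0 := by
    intro i x
    fin_cases i
    · exact D_indep smA (avg2_indep_a 0 1 sA0.continuous pA0) x
    · exact D_indep smA (avg2_indep_b 0 1 sA0.continuous pA0) x
    · exact D_indep smA (fun x t => avg2_shift 0 1 (fun y => iA2 y t) x) x
    · exact D_indep smA (fun x t => avg2_shift 0 1 (fun y => iA3 y t) x) x
  have dmB : ∀ i x, D i mB x = 0 := by
    intro i x
    fin_cases i
    · exact D_indep smB (avg2_indep_a 0 1 sB0.continuous pB0) x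
    · exact D_indep smB (avg2_indep_b 0 1 sB0.continuous pB0) x
    · exact D_indep smB (fun x t => avg2_shift 0 1 (fun y => iB2 y t) x) x
    · exact D_indep smB (fun x t => avg2_shift 0 1 (fun y => iB3 y t) x) x
  have iU2 : ∀ (x : R4) (t : ℝ), U (x + t • e 2) = U x := fun x t => iU _ (fun y => iA2 y t) x
  have iU3 : ∀ (x : R4) (t : ℝ), U (x + t • e 3) = U x := fun x t => iU _ (fun y => iA3 y t) x
  have iV2 : ∀ (x : R4) (t : ℝ), V (x + t • e 2) = V x := fun x t => iV _ (fun y => iB2 y t) x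
  have iV3 : ∀ (x : R4) (t : ℝ), V (x + t • e 3) = V x := fun x t => iV _ (fun y => iB3 y t) x
  have S2 : ∀ {g : R4 → ℝ}, S g → ∀ i j, S (D i (D j g)) := fun hg i j =>
    D_smooth (D_smooth hg j) i
  have P2 : ∀ {g : R4 → ℝ}, Per g → ∀ i j, Per (D i (D j g)) := fun hg i j =>
    D_per (D_per hg j) i
  have zU2 : ∀ i j x, D 2 (D i (D j U)) x = 0 := fun i j x =>
    D_indep (S2 sU i j) (fun x t => indep_D (fun y => indep_D (fun z => iU2 z t) j y) i x) x
  have zU3 : ∀ i j x, D 3 (D i (D j U)) x = 0 := fun i j x =>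
    D_indep (S2 sU i j) (fun x t => indep_D (fun y => indep_D (fun z => iU3 z t) j y) i x) x
  have zV2 : ∀ i j x, D 2 (D i (D j V)) x = 0 := fun i j x =>
    D_indep (S2 sV i j) (fun x t => indep_D (fun y => indep_D (fun z => iV2 z t) j y) i x) x
  have zV3 : ∀ i j x, D 3 (D i (D j V)) x = 0 := fun i j x =>
    D_indep (S2 sV i j) (fun x t => indep_D (fun y => indep_D (fun z => iV3 z t) j y) i x) x
  refine ⟨fun x => 2 * D 1 (D 3 u) x + -2 * D 1 (D 2 v) x + -2 * D 0 (D 2 u) x +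
      -2 * D 0 (D 3 v) x + 0 * mA x,
    fun x => 2 * D 2 (D 3 u) x + -2 * D 2 (D 2 v) x + 2 * D 0 (D 1 U) x +
      -2 * D 0 (D 0 V) x + -1 * mB x,
    fun x => 2 * D 3 (D 3 u) x + -2 * D 2 (D 3 v) x + 2 * D 0 (D 0 U) x +
      2 * D 0 (D 1 V) x + 1 * mA x,
    fun x => 2 * D 2 (D 2 u) x + 2 * D 2 (D 3 v) x + 2 * D 1 (D 1 U) x +
      -2 * D 0 (D 1 V) x + 1 * mA x,
    fun x => 2 * D 2 (D 3 u) x + 2 * D 3 (D 3 v) x + 2 * D 0 (D 1 U) x +
      2 * D 1 (D 1 V) x + 1 * mB x, ⟨?_, ?_, ?_, ?_, ?_⟩, ⟨?_, ?_, ?_, ?_, ?_⟩, ?_, ?_, ?_, ?_, ?_, ?_⟩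
  · exact lin5_smooth (S2 su _ _) (S2 sv _ _) (S2 su _ _) (S2 sv _ _) smA _ _ _ _ _
  · exact lin5_smooth (S2 su _ _) (S2 sv _ _) (S2 sU _ _) (S2 sV _ _) smB _ _ _ _ _
  · exact lin5_smooth (S2 su _ _) (S2 sv _ _) (S2 sU _ _) (S2 sV _ _) smA _ _ _ _ _
  · exact lin5_smooth (S2 su _ _) (S2 sv _ _) (S2 sU _ _) (S2 sV _ _) smA _ _ _ _ _
  · exact lin5_smooth (S2 su _ _) (S2 sv _ _) (S2 sU _ _) (S2 sV _ _) smB _ _ _ _ _
  · exact lin5_per (P2 pu _ _) (P2 pv _ _) (P2 pu _ _) (P2 pv _ _) pmA _ _ _ _ _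
  · exact lin5_per (P2 pu _ _) (P2 pv _ _) (P2 pU _ _) (P2 pV _ _) pmB _ _ _ _ _
  · exact lin5_per (P2 pu _ _) (P2 pv _ _) (P2 pU _ _) (P2 pV _ _) pmA _ _ _ _ _
  · exact lin5_per (P2 pu _ _) (P2 pv _ _) (P2 pU _ _) (P2 pV _ _) pmA _ _ _ _ _
  · exact lin5_per (P2 pu _ _) (P2 pv _ _) (P2 pU _ _) (P2 pV _ _) pmB _ _ _ _ _
  · intro x
    have h1 := eu x
    have h2 := eU x
    linarith
  · intro x
    have h1 := ev x
    have h2 := eV x
    linarith
  · intro x
    rw [D_lin5 (S2 su _ _) (S2 sv _ _) (S2 sU _ _) (S2 sV _ _) smA,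
      D_lin5 (S2 su _ _) (S2 sv _ _) (S2 sU _ _) (S2 sV _ _) smB,
      D_lin5 (S2 su _ _) (S2 sv _ _) (S2 su _ _) (S2 sv _ _) smA, dmA, dmB]
    have a1 := t12 su 0 2 2 x
    have a2 := t12 su 1 2 3 x
    have b1 := t12 sv 0 2 3 x
    have b2 := t12 sv 1 2 2 x
    have c1 := t12 sU 0 1 1 x
    have d1 := (t23 sV 0 0 1 x).trans (t12 sV 0 1 0 x)
    linarith [dmA 2 x]
  · intro x
    rw [D_lin5 (S2 su _ _) (S2 sv _ _) (S2 sU _ _) (S2 sV _ _) smB,
      D_lin5 (S2 su _ _) (S2 sv _ _) (S2 sU _ _) (S2 sV _ _) smA,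
      D_lin5 (S2 su _ _) (S2 sv _ _) (S2 su _ _) (S2 sv _ _) smA, dmB, dmA]
    have a3 := (t23 su 0 2 3 x).trans (t12 su 0 3 2 x)
    have a4 := t12 su 1 3 3 x
    have b3 := t12 sv 0 3 3 x
    have b4 := (t23 sv 1 2 3 x).trans (t12 sv 1 3 2 x)
    have c2 := (t23 sU 0 0 1 x).trans (t12 sU 0 1 0 x)
    have d2 := t12 sV 0 1 1 x
    linarith [dmA 3 x]
  · intro x
    rw [D_lin5 (S2 su _ _) (S2 sv _ _) (S2 sU _ _) (S2 sV _ _) smA,
      D_lin5 (S2 su _ _) (S2 sv _ _) (S2 sU _ _) (S2 sV _ _) smB, dmA, dmB, zU2, zV2, zU3, zV3]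
    have a5 := t12 su 2 3 3 x
    have b5 := (t23 sv 2 2 3 x).trans (t12 sv 2 3 2 x)
    linarith
  · intro x
    rw [D_lin5 (S2 su _ _) (S2 sv _ _) (S2 sU _ _) (S2 sV _ _) smB,
      D_lin5 (S2 su _ _) (S2 sv _ _) (S2 sU _ _) (S2 sV _ _) smA, dmA, dmB, zU2, zV2, zU3, zV3]
    have a6 := (t23 su 2 2 3 x).trans (t12 su 2 3 2 x)
    have b6 := t12 sv 2 3 3 x
    linarith

theorem familyB {A B : R4 → ℝ} (hA : S A) (hB : S B) (pA : Per A) (pB : Per B) :
    ∃ W, Symplectic W ∧ Compatible W (JAB A B) := by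
  obtain ⟨w01, w02, w03, w12, w13, ⟨h01, h02, h03, h12, h13⟩, ⟨p01, p02, p03, p12, p13⟩, hAA, hBB,
    c012, c013, c023, c123⟩ := main_form hA hB pA pB
  have hJc : ∀ i j, Continuous fun x => JAB A B x i j := by
    intro i j
    have := hA.continuous
    have := hB.continuous
    fin_cases i <;> fin_cases j <;> simp [JAB] <;> fun_prop
  -- the quadratic form without the large constant
  have hF : ∀ x v, v ⬝ᵥ (skewF w01 w02 w03 w12 w13 (fun _ => 2) x *ᵥ (JAB A B x *ᵥ v)) =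
      w01 x * (v 0 ^ 2 + v 1 ^ 2) + 2 * (v 2 ^ 2 + v 3 ^ 2) +
      2 * v 2 * (A x * v 0 + B x * v 1) - 2 * v 3 * (-B x * v 0 + A x * v 1) +
      w02 x * (v 0 * (-B x * v 0 + A x * v 1 - v 3) + v 2 * v 1) +
      w03 x * (v 0 * (A x * v 0 + B x * v 1 + v 2) + v 3 * v 1) +
      w12 x * (v 1 * (-B x * v 0 + A x * v 1 - v 3) - v 2 * v 0) +
      w13 x * (v 1 * (A x * v 0 + B x * v 1 + v 2) - v 3 * v 0) := by
    intro x v
    simp only [skewF, skew, JAB, Matrix.mulVec, dotProduct, Fin.sum_univ_four]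
    simp
    ring
  obtain ⟨C, hC⟩ := compact_form (F := fun x v => v ⬝ᵥ (skewF w01 w02 w03 w12 w13 (fun _ => 2) x *ᵥ
      (JAB A B x *ᵥ v))) (q := fun _ v => v 0 ^ 2 + v 1 ^ 2)
    (by
      simp only [hF]
      have := hA.continuous
      have := hB.continuous
      have := h01.continuous
      have := h02.continuous
      have := h03.continuous
      have := h12.continuous
      have := h13.continuous
      fun_prop)
    (by fun_prop)
    (by
      intro v x n
      simp only [hF, p01 x n, p02 x n, p03 x n, p12 x n, p13 x n, pA x n, pB x n])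
    (fun v x n => rfl)
    (by
      intro x t v
      simp only [hF, Pi.smul_apply, smul_eq_mul]
      ring)
    (by
      intro x t v
      simp only [Pi.smul_apply, smul_eq_mul]
      ring)
    (by intro x v; positivity)
    (by
      intro x v hv hq
      have h0 : v 0 = 0 := by nlinarith [sq_nonneg (v 0), sq_nonneg (v 1)]
      have h1 : v 1 = 0 := by nlinarith [sq_nonneg (v 0), sq_nonneg (v 1)]
      simp only [hF, h0, h1]
      have h2 : v 2 ≠ 0 ∨ v 3 ≠ 0 := by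
        by_contra hc
        push Not at hc
        apply hv
        ext i
        fin_cases i
        · exact h0
        · exact h1
        · exact hc.1
        · exact hc.2
      have h3 : 0 < v 2 ^ 2 + v 3 ^ 2 := by
        rcases h2 with h | h
        · positivity
        · positivity
      linarith)
  have hK : S fun x => w01 x + C := h01.add contDiff_const
  have hKp : Per fun x => w01 x + C := fun x n => by simp only [p01 x n]
  have hDK : ∀ i x, D i (fun x => w01 x + C) x = D i w01 x := by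
    intro i x
    rw [D_add h01 contDiff_const, D_const, add_zero]
  have hT : Tames (skewF (fun x => w01 x + C) w02 w03 w12 w13 (fun _ => 2)) (JAB A B) := by
    intro x v hv
    have h1 := hC x v hv
    have h2 : v ⬝ᵥ (skewF (fun x => w01 x + C) w02 w03 w12 w13 (fun _ => 2) x *ᵥ
        (JAB A B x *ᵥ v)) = v ⬝ᵥ (skewF w01 w02 w03 w12 w13 (fun _ => 2) x *ᵥ
        (JAB A B x *ᵥ v)) + C * (v 0 ^ 2 + v 1 ^ 2) := by
      simp only [skewF, skew, JAB, Matrix.mulVec, dotProduct, Fin.sum_univ_four]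
      simp
      ring
    rw [h2]
    exact h1
  refine ⟨skewF (fun x => w01 x + C) w02 w03 w12 w13 (fun _ => 2), ⟨?_, ?_, ?_, ?_⟩, hT, ?_⟩
  · exact skewF_smooth hK h02 h03 h12 h13 contDiff_const hKp p02 p03 p12 p13 (fun _ _ => rfl)
  · intro x
    exact skew_transpose _ _ _ _ _ _
  · refine skewF_closed hK h02 h03 h12 h13 contDiff_const ?_ ?_ ?_ ?_
    · intro x
      rw [hDK]
      exact c012 x
    · intro x
      rw [hDK]
      exact c013 x
    · intro x
      have := c023 x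
      rw [D_const]
      linarith
    · intro x
      have := c123 x
      rw [D_const]
      linarith
  · intro x
    exact tames_det hT x
  · intro x u v
    apply inv_of_matrix
    have e1 : w12 x = 2 * A x - w03 x := by linarith [hAA x]
    have e2 : w13 x = 2 * B x + w02 x := by linarith [hBB x]
    ext i j
    fin_cases i <;> fin_cases j <;>
      simp [skewF, skew, JAB, Matrix.mul_apply, Fin.sum_univ_four, e1, e2] <;> ring

end P204
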