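import Vale.Agent.Lib.P204.Basic

/-! # P204: weighted averages over two coordinate directions are smooth

MODULE ParInt. Proof: for `f : R4 → F` smooth with values in any normed space put
`w f x = ∫ p in Icc 0 1, k p • f (x + p.1 • e a + p.2 • e b)`; by
`hasFDerivAt_integral_of_dominated_of_fderiv_le` (bound: `fderiv f` is bounded on the compact set
`closedBall x 1 + [0,1] e a + [0,1] e b`) `w f` has derivative `w (fderiv ℝ f)`; by induction on `n`
(`contDiff_succ_iff_hasFDerivAt` or similar, generalizing `F : Type` and `f`) `w f` is `C^n` for all `n`.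
-/

open scoped ContDiff
open MeasureTheory

namespace P204

/-- the average of `f` with weight `k` over the unit square in the directions `a`, `b` -/
noncomputable def avg2 (k : ℝ × ℝ → ℝ) (a b : Fin 4) (f : R4 → ℝ) (x : R4) : ℝ :=
  ∫ p in Set.Icc (0 : ℝ × ℝ) 1, k p * f (x + p.1 • e a + p.2 • e b)

/-- the average of a vector valued function -/
private noncomputable def wavg {F : Type} [NormedAddCommGroup F] [NormedSpace ℝ F]
    (k : ℝ × ℝ → ℝ) (a b : Fin 4) (f : R4 → F) (x : R4) : F :=
  ∫ p in Set.Icc (0 : ℝ × ℝ) 1, k p • f (x + p.1 • e a + p.2 • e b)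

private theorem wavg_cont {F : Type} [NormedAddCommGroup F] [NormedSpace ℝ F]
    {k : ℝ × ℝ → ℝ} (hk : Continuous k) (a b : Fin 4) {f : R4 → F} (hf : Continuous f) :
    Continuous fun z : R4 × (ℝ × ℝ) => k z.2 • f (z.1 + z.2.1 • e a + z.2.2 • e b) := by
  refine (hk.comp continuous_snd).smul (hf.comp ?_)
  refine (continuous_fst.add ?_).add ?_
  · exact (continuous_fst.comp continuous_snd).smul continuous_const
  · exact (continuous_snd.comp continuous_snd).smul continuous_const

private theorem wavg_int {F : Type} [NormedAddCommGroup F] [NormedSpace ℝ F]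
    {k : ℝ × ℝ → ℝ} (hk : Continuous k) (a b : Fin 4) {f : R4 → F} (hf : Continuous f) (x : R4) :
    Integrable (fun p : ℝ × ℝ => k p • f (x + p.1 • e a + p.2 • e b))
      (volume.restrict (Set.Icc (0 : ℝ × ℝ) 1)) := by
  have h1 : Continuous fun p : ℝ × ℝ => k p • f (x + p.1 • e a + p.2 • e b) :=
    (wavg_cont hk a b hf).comp (Continuous.prodMk continuous_const continuous_id)
  exact h1.continuousOn.integrableOn_compact isCompact_Icc

private theorem wavg_deriv {F : Type} [NormedAddCommGroup F] [NormedSpace ℝ F]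
    {k : ℝ × ℝ → ℝ} (hk : Continuous k) (a b : Fin 4) {f : R4 → F} (hf : ContDiff ℝ ∞ f)
    (x : R4) : HasFDerivAt (wavg k a b f) (wavg k a b (fderiv ℝ f) x) x := by
  have hf0 : Continuous f := hf.continuous
  have hf1 : Continuous (fderiv ℝ f) := hf.continuous_fderiv (by simp)
  obtain ⟨C, hC⟩ := ((isCompact_closedBall x 1).prod
    (isCompact_Icc (a := (0 : ℝ × ℝ)) (b := 1))).exists_bound_of_continuousOn
    (wavg_cont hk a b hf1).continuousOn
  refine hasFDerivAt_integral_of_dominated_of_fderiv_le (𝕜 := ℝ) (E := F) (H := R4)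
    (μ := volume.restrict (Set.Icc (0 : ℝ × ℝ) 1)) (x₀ := x)
    (F := fun y p => k p • f (y + p.1 • e a + p.2 • e b))
    (F' := fun y p => k p • fderiv ℝ f (y + p.1 • e a + p.2 • e b)) (bound := fun _ => C)
    (s := Metric.closedBall x 1) (Metric.closedBall_mem_nhds x one_pos) ?_ ?_ ?_ ?_ ?_ ?_
  · exact Filter.Eventually.of_forall fun y => (wavg_int hk a b hf0 y).aestronglyMeasurable
  · exact wavg_int hk a b hf0 x
  · exact (wavg_int hk a b hf1 x).aestronglyMeasurable
  · refine (ae_restrict_iff' measurableSet_Icc).2 (Filter.Eventually.of_forall ?_)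
    intro p hp y hy
    exact hC (y, p) ⟨hy, hp⟩
  · have h1 : IntegrableOn (fun _ : ℝ × ℝ => C) (Set.Icc (0 : ℝ × ℝ) 1) volume :=
      continuousOn_const.integrableOn_compact isCompact_Icc
    exact h1
  · refine Filter.Eventually.of_forall fun p y _ => ?_
    have h1 : HasFDerivAt f (fderiv ℝ f (y + p.1 • e a + p.2 • e b))
        (y + p.1 • e a + p.2 • e b) :=
      (hf.differentiable (by simp) _).hasFDerivAt
    have h2 : HasFDerivAt (fun y : R4 => y + p.1 • e a + p.2 • e b)
        (ContinuousLinearMap.id ℝ R4) y :=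
      ((hasFDerivAt_id y).add_const _).add_const _
    have h3 := (h1.comp y h2).const_smul (k p)
    rw [ContinuousLinearMap.comp_id] at h3
    exact h3

private theorem wavg_smooth {k : ℝ × ℝ → ℝ} (hk : Continuous k) (a b : Fin 4) (n : ℕ) :
    ∀ {F : Type} [NormedAddCommGroup F] [NormedSpace ℝ F] {f : R4 → F}, ContDiff ℝ ∞ f →
      ContDiff ℝ n (wavg k a b f) := by
  induction n with
  | zero =>
    intro F _ _ f hf
    rw [Nat.cast_zero, contDiff_zero]
    exact continuous_iff_continuousAt.2 fun x => (wavg_deriv hk a b hf x).continuousAt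
  | succ n ih =>
    intro F _ _ f hf
    rw [Nat.cast_succ, contDiff_succ_iff_hasFDerivAt]
    exact ⟨wavg k a b (fderiv ℝ f), ih (hf.fderiv_right (by simp)), wavg_deriv hk a b hf⟩

private theorem avg2_eq (k : ℝ × ℝ → ℝ) (a b : Fin 4) (f : R4 → ℝ) :
    avg2 k a b f = wavg k a b f := rfl

theorem avg2_smooth {k : ℝ × ℝ → ℝ} (hk : Continuous k) (a b : Fin 4) {f : R4 → ℝ} (hf : S f) :
    S (avg2 k a b f) := by
  rw [avg2_eq]
  exact contDiff_infty.2 fun n => wavg_smooth hk a b n hf

theorem D_avg2 {k : ℝ × ℝ → ℝ} (hk : Continuous k) (a b : Fin 4) {f : R4 → ℝ} (hf : S f)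
    (i : Fin 4) (x : R4) : D i (avg2 k a b f) x = avg2 k a b (D i f) x := by
  have hf1 : Continuous (fderiv ℝ f) := hf.continuous_fderiv (by simp)
  unfold D
  rw [avg2_eq, (wavg_deriv hk a b hf x).fderiv]
  unfold wavg
  rw [ContinuousLinearMap.integral_apply (wavg_int hk a b hf1 x)]
  rfl

end P204
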