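import Vale.Agent.Lib.P204.LinA

/-! # P204: the invariant extension of a constant two-form on the hyperplane `dx₀ = 0` -/

open Matrix

namespace P204

/-- squared length of the part of `dx₀ ∘ J` on the hyperplane -/
def sJ (J : Matrix (Fin 4) (Fin 4) ℝ) : ℝ := J 0 1 ^ 2 + J 0 2 ^ 2 + J 0 3 ^ 2

/-- a vector `v` with `v₀ = 1` and `(J v)₀ = 0` -/
noncomputable def vJ (J : Matrix (Fin 4) (Fin 4) ℝ) : R4 :=
  ![1, -(J 0 0 * J 0 1) / sJ J, -(J 0 0 * J 0 2) / sJ J, -(J 0 0 * J 0 3) / sJ J]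

/-- the coefficients of the correction `dx₀ ∧ α` -/
noncomputable def al (N J : Matrix (Fin 4) (Fin 4) ℝ) (j : Fin 4) : ℝ :=
  -∑ i, vJ J i * (N i j - ∑ k, ∑ l, J k i * N k l * J l j)

/-- the extended form, with a multiple of `dx₀ ∘ J ∧ dx₀` added -/
noncomputable def ext (b12 b13 b23 C : ℝ) (J : Matrix (Fin 4) (Fin 4) ℝ) :
    Matrix (Fin 4) (Fin 4) ℝ :=
  skew (al (skew 0 0 0 b12 b13 b23) J 1 - C * J 0 1) (al (skew 0 0 0 b12 b13 b23) J 2 - C * J 0 2)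
    (al (skew 0 0 0 b12 b13 b23) J 3 - C * J 0 3) b12 b13 b23

theorem sJ_pos {J : Matrix (Fin 4) (Fin 4) ℝ} (hJ : J * J = -1) : 0 < sJ J := by
  have h00 : (J * J) 0 0 = (-1 : Matrix (Fin 4) (Fin 4) ℝ) 0 0 := by rw [hJ]
  simp only [Matrix.mul_apply, Fin.sum_univ_four, Matrix.neg_apply, Matrix.one_apply_eq] at h00
  unfold sJ
  rcases (by positivity : 0 ≤ J 0 1 ^ 2 + J 0 2 ^ 2 + J 0 3 ^ 2).lt_or_eq with h | h
  · exact h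
  · exfalso
    have h1 : J 0 1 = 0 := by nlinarith [sq_nonneg (J 0 1), sq_nonneg (J 0 2), sq_nonneg (J 0 3)]
    have h2 : J 0 2 = 0 := by nlinarith [sq_nonneg (J 0 1), sq_nonneg (J 0 2), sq_nonneg (J 0 3)]
    have h3 : J 0 3 = 0 := by nlinarith [sq_nonneg (J 0 1), sq_nonneg (J 0 2), sq_nonneg (J 0 3)]
    rw [h1, h2, h3] at h00
    nlinarith [sq_nonneg (J 0 0)]

theorem JJ {J : Matrix (Fin 4) (Fin 4) ℝ} (hJ : J * J = -1) (u : R4) : J *ᵥ (J *ᵥ u) = -u := by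
  rw [Matrix.mulVec_mulVec, hJ, Matrix.neg_mulVec, Matrix.one_mulVec]

theorem vJ_zero (J : Matrix (Fin 4) (Fin 4) ℝ) : vJ J 0 = 1 := rfl

theorem JvJ {J : Matrix (Fin 4) (Fin 4) ℝ} (hJ : J * J = -1) : (J *ᵥ vJ J) 0 = 0 := by
  have h := (sJ_pos hJ).ne'
  simp only [Matrix.mulVec, dotProduct, Fin.sum_univ_four, vJ, Matrix.cons_val]
  unfold sJ at h ⊢
  field_simp
  ring

theorem al_apply (N J : Matrix (Fin 4) (Fin 4) ℝ) (w : R4) :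
    ∑ j, al N J j * w j = -(vJ J ⬝ᵥ (N *ᵥ w) - (J *ᵥ vJ J) ⬝ᵥ (N *ᵥ (J *ᵥ w))) := by
  simp only [al, Matrix.mulVec, dotProduct, Fin.sum_univ_four]
  ring

theorem skew_self (a b c d f g : ℝ) (u : R4) : u ⬝ᵥ (skew a b c d f g *ᵥ u) = 0 := by
  simp only [skew, Matrix.mulVec, dotProduct, Fin.sum_univ_four]
  simp
  ring

theorem skew_swap (a b c d f g : ℝ) (u w : R4) :
    u ⬝ᵥ (skew a b c d f g *ᵥ w) = -(w ⬝ᵥ (skew a b c d f g *ᵥ u)) := by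
  simp only [skew, Matrix.mulVec, dotProduct, Fin.sum_univ_four]
  simp
  ring

theorem ext_aux (b12 b13 b23 C : ℝ) (a m : Fin 4 → ℝ) (J : Matrix (Fin 4) (Fin 4) ℝ)
    (hm : ∀ j, J 0 j = m j) (u w : R4) :
    u ⬝ᵥ (skew (a 1 - C * m 1) (a 2 - C * m 2) (a 3 - C * m 3) b12 b13 b23 *ᵥ w) =
      u ⬝ᵥ (skew 0 0 0 b12 b13 b23 *ᵥ w) +
      u 0 * (∑ j, a j * w j) - (∑ j, a j * u j) * w 0 +
      C * ((J *ᵥ u) 0 * w 0 - u 0 * (J *ᵥ w) 0) := by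
  simp only [skew, Matrix.mulVec, dotProduct, Fin.sum_univ_four, hm]
  simp
  ring

theorem ext_apply (b12 b13 b23 C : ℝ) (J : Matrix (Fin 4) (Fin 4) ℝ) (u w : R4) :
    u ⬝ᵥ (ext b12 b13 b23 C J *ᵥ w) = u ⬝ᵥ (skew 0 0 0 b12 b13 b23 *ᵥ w) +
      u 0 * (∑ j, al (skew 0 0 0 b12 b13 b23) J j * w j) -
      (∑ j, al (skew 0 0 0 b12 b13 b23) J j * u j) * w 0 +
      C * ((J *ᵥ u) 0 * w 0 - u 0 * (J *ᵥ w) 0) :=
  ext_aux b12 b13 b23 C (al (skew 0 0 0 b12 b13 b23) J) (fun j => J 0 j) J (fun _ => rfl) u w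

theorem ext_inv (b12 b13 b23 C : ℝ) {J : Matrix (Fin 4) (Fin 4) ℝ} (hJ : J * J = -1) (u w : R4) :
    (J *ᵥ u) ⬝ᵥ (ext b12 b13 b23 C J *ᵥ (J *ᵥ w)) = u ⬝ᵥ (ext b12 b13 b23 C J *ᵥ w) := by
  set K := ext b12 b13 b23 C J with hK
  set N := skew 0 0 0 b12 b13 b23 with hN
  have hKs : ∀ a, a ⬝ᵥ (K *ᵥ a) = 0 := fun a => skew_self _ _ _ _ _ _ a
  have hNs : ∀ a, a ⬝ᵥ (N *ᵥ a) = 0 := fun a => skew_self _ _ _ _ _ _ a
  have hNw : ∀ a b, a ⬝ᵥ (N *ᵥ b) = -(b ⬝ᵥ (N *ᵥ a)) := fun a b => skew_swap _ _ _ _ _ _ a b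
  let A : R4 →ₗ[ℝ] R4 →ₗ[ℝ] ℝ := Matrix.toLinearMap₂' ℝ (K - Jᵀ * K * J)
  have hA : ∀ a b, A a b = a ⬝ᵥ (K *ᵥ b) - (J *ᵥ a) ⬝ᵥ (K *ᵥ (J *ᵥ b)) := by
    intro a b
    show Matrix.toLinearMap₂' ℝ (K - Jᵀ * K * J) a b = _
    rw [Matrix.toLinearMap₂'_apply', Matrix.sub_mulVec, dotProduct_sub]
    congr 1
    rw [← Matrix.mulVec_mulVec, ← Matrix.mulVec_mulVec, Matrix.dotProduct_mulVec a Jᵀ,
      Matrix.vecMul_transpose]
  have h := anti_zero A J.mulVecLin (LinearMap.proj 0) (vJ J)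
    (fun a => by simp only [Matrix.mulVecLin_apply]; exact JJ hJ a)
    (fun a => by rw [hA, hKs, hKs, sub_zero])
    (fun a b => by
      simp only [Matrix.mulVecLin_apply, hA, JJ hJ, Matrix.mulVec_neg, dotProduct_neg,
        neg_dotProduct, neg_neg]
      ring)
    (vJ_zero J)
    (by simp only [Matrix.mulVecLin_apply, LinearMap.proj_apply]; exact JvJ hJ)
    (fun b => by
      rw [hA, hK, ext_apply, ext_apply, al_apply, al_apply, al_apply, al_apply]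
      simp only [JJ hJ, JvJ hJ, vJ_zero, Matrix.mulVec_neg, dotProduct_neg, neg_dotProduct,
        Pi.neg_apply]
      rw [← hN, hNs, hNs, hNw (J *ᵥ vJ J) (vJ J)]
      ring) u w
  rw [hA] at h
  linarith

/-- the value on `(u, J u)` -/
theorem ext_pos_apply (b12 b13 b23 C : ℝ) {J : Matrix (Fin 4) (Fin 4) ℝ} (hJ : J * J = -1) (u : R4) :
    u ⬝ᵥ (ext b12 b13 b23 C J *ᵥ (J *ᵥ u)) = u ⬝ᵥ (ext b12 b13 b23 0 J *ᵥ (J *ᵥ u)) +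
      C * (u 0 ^ 2 + (J *ᵥ u) 0 ^ 2) := by
  rw [ext_apply, ext_apply, JJ hJ]
  simp only [Pi.neg_apply]
  ring

/-- on vectors `u` with `u₀ = (J u)₀ = 0` the extension is the original form -/
theorem ext_hyper (b12 b13 b23 C : ℝ) (J : Matrix (Fin 4) (Fin 4) ℝ) (u w : R4)
    (hu : u 0 = 0) (hw : w 0 = 0) (a01 a02 a03 : ℝ) :
    u ⬝ᵥ (ext b12 b13 b23 C J *ᵥ w) = u ⬝ᵥ (skew a01 a02 a03 b12 b13 b23 *ᵥ w) := by
  rw [ext_apply, hu, hw]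
  simp only [skew, Matrix.mulVec, dotProduct, Fin.sum_univ_four]
  simp [hu, hw]

end P204
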